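import Vale.Agent.P220Z.Per.Stp

/-!
# P220, persistence: a family that generates the zero section is rigid
-/

open Set Filter Topology
open scoped ContDiff RealInnerProductSpace

set_option linter.unusedSectionVars false

namespace Vale.Agent.P220Z.Per

open Vale.Agent.P220.R2.H57

namespace Rig

variable {E : Type} [NormedAddCommGroup E] [InnerProductSpace ℝ E] [FiniteDimensional ℝ E]
  {V : Type} [NormedAddCommGroup V] [InnerProductSpace ℝ V] [FiniteDimensional ℝ V]

/-- the fibre gradient of a covector -/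
theorem exists_grad : ∃ T : (E × V →L[ℝ] ℝ) →L[ℝ] V, ∀ l w, ⟪T l, w⟫ = l (0, w) := by
  let e := stdOrthonormalBasis ℝ V
  refine ⟨∑ i, (ContinuousLinearMap.apply ℝ ℝ ((0 : E), e i)).smulRight (e i), fun l w => ?_⟩
  have h : ((0 : E), w) = ∑ i, ⟪e i, w⟫ • ((0 : E), e i) := by
    refine Prod.ext ?_ ?_
    · simp [Prod.fst_sum]
    · simp only [Prod.snd_sum, Prod.smul_snd]
      exact (e.sum_repr' w).symm
  rw [h, map_sum, sum_apply, sum_inner]
  refine Finset.sum_congr rfl fun i _ => ?_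
  rw [ContinuousLinearMap.smulRight_apply, real_inner_smul_left, map_smul,
    ContinuousLinearMap.apply_apply, smul_eq_mul, mul_comm]

/-- if the fibre critical points near `z` are critical points and the fibre critical set is cut
out transversally, then the fibre Hessian is nondegenerate -/
theorem core {G : E × V → ℝ} (hG : ContDiff ℝ ∞ G) {z : E × V}
    (h0 : ∀ w, fderiv ℝ G z (0, w) = 0)
    (h1 : ∀ᶠ y in 𝓝 z, (∀ w, fderiv ℝ G y (0, w) = 0) → fderiv ℝ G y = 0)
    (h2 : ∀ v, fderiv ℝ (fderiv ℝ G) z (0, v) = 0 → v = 0) (v : V)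
    (hv : ∀ w, fderiv ℝ (fderiv ℝ G) z (0, v) (0, w) = 0) : v = 0 := by
  obtain ⟨T, hT⟩ := exists_grad (E := E) (V := V)
  have hD : ContDiff ℝ ∞ (fderiv ℝ G) := hG.fderiv_right (m := ∞) (by simp)
  set H := fderiv ℝ (fderiv ℝ G) z with hH
  have hDs : HasStrictFDerivAt (fderiv ℝ G) H z := hD.contDiffAt.hasStrictFDerivAt (by simp)
  have hsym : ∀ y y', H y y' = H y' y := fun y y' =>
    (hG.contDiffAt.isSymmSndFDerivAt (by
      rw [minSmoothness_of_isRCLikeNormedField]
      exact WithTop.coe_le_coe.2 (le_top : (2 : ℕ∞) ≤ ⊤))).eq y y'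
  have hφ : HasStrictFDerivAt (fun y => T (fderiv ℝ G y)) (T.comp H) z :=
    HasStrictFDerivAt.comp (𝕜 := ℝ) (E := E × V) (F := E × V →L[ℝ] ℝ) (G := V) z
      T.hasStrictFDerivAt hDs
  have hzero : ∀ l : E × V →L[ℝ] ℝ, T l = 0 ↔ ∀ w, l (0, w) = 0 := by
    intro l
    constructor
    · intro h w
      rw [← hT, h, inner_zero_left]
    · intro h
      exact inner_self_eq_zero.1 ((hT l (T l)).trans (h _))
  have hsurj : (T.comp H).range = ⊤ := by
    rw [← Submodule.orthogonal_eq_bot_iff, eq_bot_iff]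
    intro u hu
    refine h2 u (ContinuousLinearMap.ext fun y => ?_)
    have h3 : ⟪T (H y), u⟫ = 0 := (Submodule.mem_orthogonal _ _).1 hu _ ⟨y, rfl⟩
    rw [hsym, ← hT, h3]
    rfl
  have hg := hφ.to_implicitFunction hsurj
  have hg0 := hφ.implicitFunction_apply_image hsurj
  have hg1 := hφ.map_implicitFunction_eq hsurj
  set g := hφ.implicitFunction _ _ hsurj (T (fderiv ℝ G z)) with hgdef
  have hg2 : ∀ᶠ k in 𝓝 (0 : (T.comp H).ker), T (fderiv ℝ G (g k)) = T (fderiv ℝ G z) :=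
    (continuous_const.prodMk continuous_id).continuousAt.eventually hg1
  have hg3 : ∀ᶠ k in 𝓝 (0 : (T.comp H).ker),
      (∀ w, fderiv ℝ G (g k) (0, w) = 0) → fderiv ℝ G (g k) = 0 := by
    have hc : Tendsto g (𝓝 0) (𝓝 z) := by
      have := hg.continuousAt.tendsto
      rwa [hg0] at this
    exact hc.eventually h1
  have hg4 : (fun k => fderiv ℝ G (g k)) =ᶠ[𝓝 0] fun _ => 0 := by
    filter_upwards [hg2, hg3] with k e1 e2
    exact e2 ((hzero _).1 (e1.trans ((hzero _).2 h0)))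
  have hd : HasFDerivAt (fun k => fderiv ℝ G (g k)) (H.comp (T.comp H).ker.subtypeL) 0 := by
    have h5 : HasFDerivAt (fderiv ℝ G) H (g 0) := by
      rw [hg0]; exact hDs.hasFDerivAt
    exact HasFDerivAt.comp (𝕜 := ℝ) (F := E × V) (G := E × V →L[ℝ] ℝ) 0 h5 hg.hasFDerivAt
  have h6 := hd.unique ((hasFDerivAt_const _ _).congr_of_eventuallyEq hg4)
  have hk : ((0 : E), v) ∈ (T.comp H).ker := (hzero _).2 hv
  exact h2 v (congrArg (fun C => C ⟨_, hk⟩) h6)

theorem line_deriv {G : E × V → ℝ} (hG : ContDiff ℝ ∞ G) (b : E) (x v : V) (y : E × V) :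
    HasDerivAt (fun t : ℝ => fderiv ℝ G (b, x + t • v) y)
      (fderiv ℝ (fderiv ℝ G) (b, x) (0, v) y) 0 := by
  have hD : ContDiff ℝ ∞ (fderiv ℝ G) := hG.fderiv_right (m := ∞) (by simp)
  have h1 : HasDerivAt (fun t : ℝ => (b, x + t • v)) ((0 : E), v) 0 :=
    (hasDerivAt_const _ b).prodMk (Aux.hasDerivAt_line x v 0)
  have h2 : HasFDerivAt (fderiv ℝ G) (fderiv ℝ (fderiv ℝ G) (b, x)) (b, x + (0 : ℝ) • v) := by
    rw [zero_smul, add_zero]
    exact (hD.differentiable (by simp) _).hasFDerivAt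
  exact (ContinuousLinearMap.apply ℝ ℝ y).hasFDerivAt.comp_hasDerivAt (0 : ℝ)
    (h2.comp_hasDerivAt (0 : ℝ) h1)

theorem fderiv_pull {F : E × V → ℝ} (hF : ContDiff ℝ ∞ F) {r : E → E} (hr : ContDiff ℝ ∞ r)
    (b : E) (x : V) (u : E) (w : V) :
    fderiv ℝ (fun y : E × V => F (r y.1, y.2)) (b, x) (u, w) =
      fderiv ℝ F (r b, x) (fderiv ℝ r b u, w) := by
  have h1 : HasFDerivAt (fun y : E × V => (r y.1, y.2))
      (((fderiv ℝ r b).comp (ContinuousLinearMap.fst ℝ E V)).prod (ContinuousLinearMap.snd ℝ E V))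
      (b, x) :=
    ((hr.differentiable (by simp) b).hasFDerivAt.comp (b, x) hasFDerivAt_fst).prodMk
      hasFDerivAt_snd
  have h2 := ((hF.differentiable (by simp) (r b, x)).hasFDerivAt.comp (b, x) h1).fderiv
  exact congrArg (fun C => C (u, w)) h2

theorem push_tan {Qt U : Set E} {r : E → E} (hr : IsRet Qt U r) {b : E} (hb : b ∈ U) (u : E) :
    fderiv ℝ r b u ∈ Tan Qt (r b) := by
  rw [hr.mem_Tan (hr.maps b hb), mem_Tn]
  have h1 : HasFDerivAt (fun y => r (r y)) ((fderiv ℝ r (r b)).comp (fderiv ℝ r b)) b :=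
    (hr.hasFDerivAt (r b)).comp b (hr.hasFDerivAt b)
  have h2 : (fun y => r (r y)) =ᶠ[𝓝 b] r := by
    filter_upwards [hr.isOpen.mem_nhds hb] with y hy
    exact hr.fix _ (hr.maps y hy)
  exact congrArg (fun C => C u) (h1.unique ((hr.hasFDerivAt b).congr_of_eventuallyEq h2))

end Rig

theorem stRigid : StRigid := by
  intro E _ _ _ E' _ _ V _ _ _ Qt U r Q P a m F hr hP _ hF hgen b hb
  have hflat : ∀ b ∈ Qt, ∀ x, dV F b x = 0 → |F (b, x)| < a →
      ∀ u ∈ Tan Qt b, fderiv ℝ F (b, x) (u, 0) = 0 := by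
    intro b hb x h1 h2 u hu
    obtain ⟨p, hp, hc⟩ := hgen.mem b hb x h1 h2
    have hp0 : p = 0 := hp.2
    rw [← hc u hu, hp0, inner_zero_left]
  obtain ⟨x, hx1, hx2, -⟩ := hgen.onto b hb 0 ⟨hP b hb, rfl⟩
  refine ⟨x, hx1, hx2, ?_, fun x' h1 h2 => hgen.inj b hb x' x h1 hx1 h2 hx2 fun u hu => by
    rw [hflat b hb x' h1 h2 u hu, hflat b hb x hx1 hx2 u hu]⟩
  rw [injective_iff_map_eq_zero]
  intro v hv
  set G : E × V → ℝ := fun y => F (r y.1, y.2) with hGdef
  have hG : ContDiff ℝ ∞ G := hF.comp ((hr.smooth.comp contDiff_fst).prodMk contDiff_snd)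
  have hpull : ∀ b x u w, fderiv ℝ G (b, x) (u, w) = fderiv ℝ F (r b, x) (fderiv ℝ r b u, w) :=
    Rig.fderiv_pull hF hr.smooth
  have hrb : r b = b := hr.fix b hb
  refine Rig.core hG (z := (b, x)) (fun w => ?_) ?_ (fun v' hv' => ?_) v fun w => ?_
  · rw [hpull, map_zero, hrb, ← Aux.dV_apply hF, hx1]
    rfl
  · have e1 : ∀ᶠ y : E × V in 𝓝 (b, x), y.1 ∈ U :=
      continuous_fst.continuousAt.eventually_mem (hr.isOpen.mem_nhds (hr.sub hb))
    have e2 : ∀ᶠ y : E × V in 𝓝 (b, x), |G y| < a := by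
      refine (hG.continuous.abs.continuousAt).eventually_lt continuousAt_const ?_
      simpa only [hGdef, hrb] using hx2
    filter_upwards [e1, e2] with y hy1 hy2 hy3
    obtain ⟨b', x'⟩ := y
    have h1 : dV F (r b') x' = 0 := by
      ext w
      have := hy3 w
      rw [hpull, map_zero] at this
      rw [Aux.dV_apply hF, this]
      rfl
    refine ContinuousLinearMap.ext fun y => ?_
    obtain ⟨u, w⟩ := y
    have h2 : (u, w) = (u, (0 : V)) + ((0 : E), w) := by simp
    rw [h2, map_add, hy3 w, hpull, hflat _ (hr.maps b' hy1) x' h1 hy2 _ (Rig.push_tan hr hy1 u)]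
    simp
  · refine hgen.reg b hb x hx1 hx2 v' fun u hu w => ?_
    have h1 := Rig.line_deriv hG b x v' (u, w)
    rw [hv'] at h1
    have h2 : fderiv ℝ r b u = u := (hr.mem_Tan hb).1 hu
    simpa only [hpull, hrb, h2, zero_apply] using h1
  · have h1 := Rig.line_deriv hG b x v (0, w)
    have hd : ContDiff ℝ ∞ (dV F b) :=
      (hF.comp (contDiff_const.prodMk contDiff_id)).fderiv_right (m := ∞) (by simp)
    have h2 : HasFDerivAt (dV F b) (fderiv ℝ (dV F b) x) (x + (0 : ℝ) • v) := by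
      rw [zero_smul, add_zero]
      exact (hd.differentiable (by simp) _).hasFDerivAt
    have h3 := (ContinuousLinearMap.apply ℝ ℝ w).hasFDerivAt.comp_hasDerivAt (0 : ℝ)
      (h2.comp_hasDerivAt (0 : ℝ) (Aux.hasDerivAt_line x v 0))
    rw [hv, map_zero] at h3
    refine h1.unique ?_
    refine h3.congr_of_eventuallyEq (Eventually.of_forall fun t => ?_)
    simp only [hpull, hrb, map_zero, Function.comp_apply, ContinuousLinearMap.apply_apply,
      Aux.dV_apply hF]

end Vale.Agent.P220Z.Per
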