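import Vale.Agent.P220Z.Per.Defs

/-!
# P220, persistence: the family after one step and its differential
-/

open Set Filter Topology
open scoped ContDiff RealInnerProductSpace

set_option linter.unusedSectionVars false

namespace Vale.Agent.P220Z.Per

open Vale.Agent.P220.R2.H57

variable {G : Type} [Group G]
  {E : Type} [NormedAddCommGroup E] [InnerProductSpace ℝ E]
  {E' : Type} [NormedAddCommGroup E'] [InnerProductSpace ℝ E']
  {V : Type} [NormedAddCommGroup V] [InnerProductSpace ℝ V]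

namespace Aux

/-- a cutoff of the displacement -/
structure IsBeta (ε : ℝ) (β : E' → E') : Prop where
  smooth : ContDiff ℝ ∞ β
  eq : ∀ ξ, ‖ξ‖ ≤ ε → β ξ = ξ
  le : ∀ ξ, ‖β ξ‖ ≤ 2 * ε

theorem exists_beta [FiniteDimensional ℝ E'] {ε : ℝ} (hε : 0 < ε) :
    ∃ β : E' → E', IsBeta ε β := by
  let χ : ContDiffBump (0 : E') := ⟨ε, 2 * ε, hε, by linarith⟩
  refine ⟨fun ξ => χ ξ • ξ, χ.contDiff.smul contDiff_id, fun ξ h => ?_, fun ξ => ?_⟩
  · rw [χ.one_of_mem_closedBall (by simpa using h), one_smul]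
  · by_cases h : 2 * ε ≤ ‖ξ‖
    · rw [χ.zero_of_le_dist (by simpa using h), zero_smul, norm_zero]
      linarith
    · rw [norm_smul, Real.norm_eq_abs, abs_of_nonneg χ.nonneg]
      have h1 : χ ξ ≤ 1 := χ.le_one
      have h2 : 0 ≤ χ ξ := χ.nonneg
      nlinarith [norm_nonneg ξ]

theorem IsBeta.fderiv_eq {ε : ℝ} {β : E' → E'} (h : IsBeta ε β) {ξ : E'} (hξ : ‖ξ‖ < ε)
    (η : E') : fderiv ℝ β ξ η = η := by
  have h1 : β =ᶠ[𝓝 ξ] id := by
    filter_upwards [(isOpen_lt continuous_norm continuous_const).mem_nhds hξ] with y hy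
    exact h.eq y (le_of_lt hy)
  rw [h1.fderiv_eq, fderiv_id]
  rfl

/-- a point of the new fibre -/
abbrev mk (x : V) (ξ p : E') : St V E' := WithLp.toLp 2 (x, WithLp.toLp 2 (ξ, p))

theorem mk_eta (X : St V E') : mk X.fst X.snd.fst X.snd.snd = X := rfl

theorem mk_line (x v : V) (ξ p η π : E') (t : ℝ) :
    mk x ξ p + t • mk v η π = mk (x + t • v) (ξ + t • η) (p + t • π) := rfl

theorem norm_mk_sq (x : V) (ξ p : E') : ‖mk x ξ p‖ ^ 2 = ‖x‖ ^ 2 + ‖ξ‖ ^ 2 + ‖p‖ ^ 2 := by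
  rw [WithLp.prod_norm_sq_eq_of_L2, WithLp.prod_norm_sq_eq_of_L2 (mk x ξ p).snd]
  simp only [WithLp.toLp_fst, WithLp.toLp_snd]
  ring

theorem norm_mk_le (x : V) (ξ p : E') : ‖mk x ξ p‖ ≤ ‖x‖ + ‖ξ‖ + ‖p‖ := by
  have h := norm_mk_sq x ξ p
  have h1 := norm_nonneg x
  have h2 := norm_nonneg ξ
  have h3 := norm_nonneg p
  refine (pow_le_pow_iff_left₀ (norm_nonneg _) (by positivity) two_ne_zero).1 ?_
  nlinarith [mul_nonneg h1 h2, mul_nonneg h1 h3, mul_nonneg h2 h3]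

theorem norm_mk_x (x : V) : ‖mk x (0 : E') 0‖ = ‖x‖ := by
  have h := norm_mk_sq x (0 : E') 0
  simp only [norm_zero] at h
  exact (sq_eq_sq₀ (norm_nonneg _) (norm_nonneg _)).1 (by linarith)

theorem norm_mk_ξ (ξ : E') : ‖mk (0 : V) ξ 0‖ = ‖ξ‖ := by
  have h := norm_mk_sq (0 : V) ξ 0
  simp only [norm_zero] at h
  exact (sq_eq_sq₀ (norm_nonneg _) (norm_nonneg _)).1 (by linarith)

theorem norm_mk_p (p : E') : ‖mk (0 : V) 0 p‖ = ‖p‖ := by
  have h := norm_mk_sq (0 : V) 0 p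
  simp only [norm_zero] at h
  exact (sq_eq_sq₀ (norm_nonneg _) (norm_nonneg _)).1 (by linarith)

theorem dV_apply {F : E × V → ℝ} (hF : ContDiff ℝ ∞ F) (b : E) (x w : V) :
    dV F b x w = fderiv ℝ F (b, x) (0, w) := by
  have h1 : HasFDerivAt (fun y : V => (b, y)) (ContinuousLinearMap.inr ℝ E V) x :=
    hasFDerivAt_prodMk_right b x
  have h2 := ((hF.differentiable (by simp) (b, x)).hasFDerivAt.comp x h1).fderiv
  have h3 : dV F b x = (fderiv ℝ F (b, x)).comp (ContinuousLinearMap.inr ℝ E V) := h2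
  rw [h3]
  rfl

theorem hasDerivAt_line {A : Type} [NormedAddCommGroup A] [NormedSpace ℝ A] (x v : A) (t : ℝ) :
    HasDerivAt (fun s : ℝ => x + s • v) v t := by
  simpa using ((hasDerivAt_id t).smul_const v).const_add x

theorem fderiv_of_line {A : Type} [NormedAddCommGroup A] [NormedSpace ℝ A] {f : A → ℝ}
    (hf : ContDiff ℝ ∞ f) {x v : A} {d : ℝ} (h : HasDerivAt (fun s : ℝ => f (x + s • v)) d 0) :
    fderiv ℝ f x v = d := by
  have h1 : HasFDerivAt f (fderiv ℝ f x) (x + (0 : ℝ) • v) := by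
    rw [zero_smul, add_zero]
    exact (hf.differentiable (by simp) x).hasFDerivAt
  exact (h1.comp_hasDerivAt (0 : ℝ) (hasDerivAt_line x v 0)).unique h

/-- the family at time `τ` of the step -/
noncomputable def stp (P : E → E') (σ : E × E' → E) (β : E' → E') (ψ : ℝ × (E' × E') → E' × E')
    (S : ℝ × (E' × E') → ℝ) (F : E × V → ℝ) (w : ℝ × (E × St V E')) : ℝ :=
  F (σ (w.2.1, w.1 • β w.2.2.snd.fst), w.2.2.fst) +
    S (w.1, (P w.2.1 + β w.2.2.snd.fst, w.2.2.snd.snd)) +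
    ⟪(ψ (w.1, (P w.2.1 + β w.2.2.snd.fst, w.2.2.snd.snd))).2,
      P w.2.1 - (ψ (w.1, (P w.2.1 + β w.2.2.snd.fst, w.2.2.snd.snd))).1⟫ +
    ⟪w.2.2.snd.snd, β w.2.2.snd.fst - w.2.2.snd.fst⟫

variable {P : E → E'} {σ : E × E' → E} {β : E' → E'} {ψ : ℝ × (E' × E') → E' × E'}
  {S : ℝ × (E' × E') → ℝ} {F : E × V → ℝ}

theorem stp_mk (τ : ℝ) (b : E) (x : V) (ξ p : E') : stp P σ β ψ S F (τ, (b, mk x ξ p)) =
    F (σ (b, τ • β ξ), x) + S (τ, (P b + β ξ, p)) +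
      ⟪(ψ (τ, (P b + β ξ, p))).2, P b - (ψ (τ, (P b + β ξ, p))).1⟫ + ⟪p, β ξ - ξ⟫ := rfl

theorem stp_smooth (hP : ContDiff ℝ ∞ P) (hσ : ContDiff ℝ ∞ σ) (hβ : ContDiff ℝ ∞ β)
    (hψ : ContDiff ℝ ∞ ψ) (hS : ContDiff ℝ ∞ S) (hF : ContDiff ℝ ∞ F) :
    ContDiff ℝ ∞ (stp P σ β ψ S F) := by
  have hb : ContDiff ℝ ∞ fun w : ℝ × (E × St V E') => w.2.1 := contDiff_fst.comp contDiff_snd
  have hX : ContDiff ℝ ∞ fun w : ℝ × (E × St V E') => w.2.2 := contDiff_snd.comp contDiff_snd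
  have hx : ContDiff ℝ ∞ fun w : ℝ × (E × St V E') => w.2.2.fst :=
    (WithLp.fstL 2 ℝ V (WithLp 2 (E' × E'))).contDiff.comp hX
  have hY : ContDiff ℝ ∞ fun w : ℝ × (E × St V E') => w.2.2.snd :=
    (WithLp.sndL 2 ℝ V (WithLp 2 (E' × E'))).contDiff.comp hX
  have hξ : ContDiff ℝ ∞ fun w : ℝ × (E × St V E') => w.2.2.snd.fst :=
    (WithLp.fstL 2 ℝ E' E').contDiff.comp hY
  have hp : ContDiff ℝ ∞ fun w : ℝ × (E × St V E') => w.2.2.snd.snd :=
    (WithLp.sndL 2 ℝ E' E').contDiff.comp hY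
  have hz : ContDiff ℝ ∞ fun w : ℝ × (E × St V E') =>
      (w.1, (P w.2.1 + β w.2.2.snd.fst, w.2.2.snd.snd)) :=
    contDiff_fst.prodMk (((hP.comp hb).add (hβ.comp hξ)).prodMk hp)
  have h1 : ContDiff ℝ ∞ fun w : ℝ × (E × St V E') =>
      F (σ (w.2.1, w.1 • β w.2.2.snd.fst), w.2.2.fst) :=
    hF.comp ((hσ.comp (hb.prodMk (contDiff_fst.smul (hβ.comp hξ)))).prodMk hx)
  exact ((h1.add (hS.comp hz)).add ((contDiff_snd.comp (hψ.comp hz)).inner ℝ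
    ((hP.comp hb).sub (contDiff_fst.comp (hψ.comp hz))))).add (hp.inner ℝ ((hβ.comp hξ).sub hξ))

theorem slice_smooth {A B : Type} [NormedAddCommGroup A] [NormedSpace ℝ A] [NormedAddCommGroup B]
    [NormedSpace ℝ B] {f : ℝ × A → B} (hf : ContDiff ℝ ∞ f) (τ : ℝ) :
    ContDiff ℝ ∞ fun y => f (τ, y) :=
  hf.comp (contDiff_const.prodMk contDiff_id)

/-- the differential of the family of the step -/
theorem fderiv_stp (hP : ContDiff ℝ ∞ P) (hσ : ContDiff ℝ ∞ σ) (hβ : ContDiff ℝ ∞ β)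
    (hψ : ContDiff ℝ ∞ ψ) (hS : ContDiff ℝ ∞ S) (hF : ContDiff ℝ ∞ F) {τ : ℝ}
    (hd : ∀ z w, fderiv ℝ (fun y => S (τ, y)) z w =
      ⟪(ψ (τ, z)).2, (fderiv ℝ (fun y => ψ (τ, y)) z w).1⟫ - ⟪z.2, w.1⟫)
    (b u : E) (x w : V) (ξ p η π : E') :
    fderiv ℝ (fun y => stp P σ β ψ S F (τ, y)) (b, mk x ξ p) (u, mk w η π) =
      fderiv ℝ F (σ (b, τ • β ξ), x) (fderiv ℝ σ (b, τ • β ξ) (u, τ • fderiv ℝ β ξ η), w) +
      ⟪(fderiv ℝ (fun y => ψ (τ, y)) (P b + β ξ, p) (fderiv ℝ P b u + fderiv ℝ β ξ η, π)).2,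
        P b - (ψ (τ, (P b + β ξ, p))).1⟫ +
      ⟪(ψ (τ, (P b + β ξ, p))).2 - p, fderiv ℝ P b u⟫ - ⟪p, η⟫ + ⟪π, β ξ - ξ⟫ := by
  refine fderiv_of_line (slice_smooth (stp_smooth hP hσ hβ hψ hS hF) τ) ?_
  have e : (fun s : ℝ => stp P σ β ψ S F (τ, (b, mk x ξ p) + s • (u, mk w η π))) = fun s : ℝ =>
      F (σ (b + s • u, τ • β (ξ + s • η)), x + s • w) +
        S (τ, (P (b + s • u) + β (ξ + s • η), p + s • π)) +
        ⟪(ψ (τ, (P (b + s • u) + β (ξ + s • η), p + s • π))).2,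
          P (b + s • u) - (ψ (τ, (P (b + s • u) + β (ξ + s • η), p + s • π))).1⟫ +
        ⟪p + s • π, β (ξ + s • η) - (ξ + s • η)⟫ := rfl
  rw [e]
  have lb := hasDerivAt_line b u 0
  have lx := hasDerivAt_line x w 0
  have lξ := hasDerivAt_line ξ η 0
  have lp := hasDerivAt_line p π 0
  have dP := (hP.differentiable (by simp) _).hasFDerivAt.comp_hasDerivAt (0 : ℝ) lb
  have dβ := (hβ.differentiable (by simp) _).hasFDerivAt.comp_hasDerivAt (0 : ℝ) lξ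
  have dσ := (hσ.differentiable (by simp) _).hasFDerivAt.comp_hasDerivAt (0 : ℝ)
    (lb.prodMk (dβ.const_smul τ))
  have dF := (hF.differentiable (by simp) _).hasFDerivAt.comp_hasDerivAt (0 : ℝ) (dσ.prodMk lx)
  have dz := (dP.add dβ).prodMk lp
  have dS := ((slice_smooth hS τ).differentiable (by simp) _).hasFDerivAt.comp_hasDerivAt
    (0 : ℝ) dz
  have dψ := ((slice_smooth hψ τ).differentiable (by simp) _).hasFDerivAt.comp_hasDerivAt
    (0 : ℝ) dz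
  have dψ1 := (ContinuousLinearMap.fst ℝ E' E').hasFDerivAt.comp_hasDerivAt (0 : ℝ) dψ
  have dψ2 := (ContinuousLinearMap.snd ℝ E' E').hasFDerivAt.comp_hasDerivAt (0 : ℝ) dψ
  have tot := ((dF.add dS).add (dψ2.inner ℝ (dP.sub dψ1))).add (lp.inner ℝ (dβ.sub lξ))
  refine tot.congr_deriv ?_
  simp only [Function.comp_def, Pi.add_apply, Pi.sub_apply, Pi.smul_apply, zero_smul, add_zero,
    ContinuousLinearMap.coe_fst', ContinuousLinearMap.coe_snd', hd, inner_sub_right,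
    inner_add_right, inner_sub_left]
  ring

end Aux

end Vale.Agent.P220Z.Per
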