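import Vale.Agent.P220Z.Per.Htpy

/-!
# P220, persistence: the structured output
-/

open Set
open scoped ContDiff RealInnerProductSpace

namespace Vale.Agent.P220Z.Per

open Vale.Agent.P220.R2.H57

/-- the move is trivial for large momenta -/
def Supp {E' : Type} [NormedAddCommGroup E'] (ψ : ℝ × (E' × E') → E' × E')
    (S : ℝ × (E' × E') → ℝ) : Prop :=
  ∃ R : ℝ, ∀ τ ∈ Icc (0 : ℝ) 1, ∀ z : E' × E', R ≤ ‖z.2‖ → ψ (τ, z) = z ∧ S (τ, z) = 0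

/-- `StFlow` with moves that are trivial for large momenta. -/
def StFlowS : Prop :=
  ∀ (E' : Type) [NormedAddCommGroup E'] [InnerProductSpace ℝ E'] [FiniteDimensional ℝ E']
    (Q U : Set E') (r : E' → E') (L : Set (E' × E')), IsRet Q U r → IsCompact Q →
    HamIsotopicToZero Q L → ∀ ε > 0, ∀ Λ : ℝ, ∃ (k : ℕ) (κ R : ℝ) (A : ℕ → Set (E' × E')),
      A 0 = L ∧ A k = {z | z.1 ∈ Q ∧ z.2 = 0} ∧ (∀ j ≤ k, ∀ z ∈ A j, Λ * ‖z.2‖ ≤ R) ∧
      ∀ j < k, ∃ ψ S, IsMove Q (A j) (A (j + 1)) ε κ R ψ S ∧ Supp ψ S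

/-- `N` passes through one step. -/
def StepClosed {G : Type} [Group G] {E : Type} [NormedAddCommGroup E] [InnerProductSpace ℝ E]
    {E' : Type} [NormedAddCommGroup E'] [InnerProductSpace ℝ E'] [FiniteDimensional ℝ E']
    (α : G →* (E ≃ₗᵢ[ℝ] E)) (Qt : Set E) (Q : Set E') (P : E → E') (a : ℝ) (N : FamPred G E) :
    Prop :=
  ∀ (V : Type) [NormedAddCommGroup V] [InnerProductSpace ℝ V] [FiniteDimensional ℝ V]
    (ρ : G →* (V ≃ₗᵢ[ℝ] V)) (F : E × V → ℝ) (ε : ℝ) (σ : E × E' → E) (β : E' → E')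
    (A B : Set (E' × E')) (κ R : ℝ) (ψ : ℝ × (E' × E') → E' × E') (S : ℝ × (E' × E') → ℝ) (m : ℝ),
    Aux.Ctx α Qt Q P ε σ β A B κ R ψ S → Supp ψ S → HasCompactSupport β → IsAdm α Qt a ρ F →
    κ + 1 ≤ m →
    (∀ b ∈ Qt, ∀ x, dV F b x = 0 → |F (b, x)| ≤ a - m ∨ a + m ≤ |F (b, x)|) →
    N V ρ F → N (St V E') (stRep E' ρ) fun w => Aux.stp P σ β ψ S F (1, w)

/-- Persistence for properties that pass through a step. -/
def StGen : Prop :=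
  ∀ (G : Type) [Group G] (E : Type) [NormedAddCommGroup E] [InnerProductSpace ℝ E]
    [FiniteDimensional ℝ E] (E' : Type) [NormedAddCommGroup E'] [InnerProductSpace ℝ E']
    [FiniteDimensional ℝ E'] (α : G →* (E ≃ₗᵢ[ℝ] E)) (Qt : Set E) (Q : Set E') (P : E → E')
    (L : Set (E' × E')), IsCover α Qt Q P → HamIsotopicToZero Q L →
    ∃ C : ℝ, ∀ (a : ℝ) (N : FamPred G E), StepClosed α Qt Q P a N →
      ∀ (V : Type) [NormedAddCommGroup V] [InnerProductSpace ℝ V] [FiniteDimensional ℝ V]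
        (ρ : G →* (V ≃ₗᵢ[ℝ] V)) (F : E × V → ℝ), IsAdm α Qt a ρ F → IsGen Qt P L a C F →
        N V ρ F →
        ∃ (V' : Type) (_ : NormedAddCommGroup V') (_ : InnerProductSpace ℝ V')
          (_ : FiniteDimensional ℝ V') (ρ' : G →* (V' ≃ₗᵢ[ℝ] V')) (F' : E × V' → ℝ),
          IsAdm α Qt a ρ' F' ∧ IsRigid Qt a F' ∧ N V' ρ' F'

section

variable {G : Type} [Group G]
  {E : Type} [NormedAddCommGroup E] [InnerProductSpace ℝ E]
  {V : Type} [NormedAddCommGroup V] [InnerProductSpace ℝ V]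
  {Z : Type} [NormedAddCommGroup Z] [InnerProductSpace ℝ Z]

/-- the family `F (sg (b, ξ), x) - ⟪p, ξ⟫ + w (b, ξ, p)` -/
noncomputable def strF (sg : E × Z → E) (w : E × (Z × Z) → ℝ) (F : E × V → ℝ) :
    E × St V Z → ℝ :=
  fun y => F (sg (y.1, y.2.snd.fst), y.2.fst) - ⟪y.2.snd.snd, y.2.snd.fst⟫ +
    w (y.1, (y.2.snd.fst, y.2.snd.snd))

/-- the displacement `sg` of the base point and the bounded term `w` -/
structure IsStr (α : G →* (E ≃ₗᵢ[ℝ] E)) (Qt : Set E) (sg : E × Z → E) (w : E × (Z × Z) → ℝ) :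
    Prop where
  ssg : ContDiff ℝ ∞ sg
  sw : ContDiff ℝ ∞ w
  zero : ∀ b, sg (b, 0) = b
  mem : ∀ b ∈ Qt, ∀ ξ, sg (b, ξ) ∈ Qt
  equi : ∀ g, ∀ b ∈ Qt, ∀ ξ, sg (α g b, ξ) = α g (sg (b, ξ))
  inv : ∀ g, ∀ b ∈ Qt, ∀ z, w (α g b, z) = w (b, z)
  bdd : ∃ C, ∀ b ∈ Qt, ∀ ξ p, ‖fderiv ℝ sg (b, ξ)‖ ≤ C ∧ |w (b, (ξ, p))| ≤ C ∧
    ‖fderiv ℝ w (b, (ξ, p))‖ ≤ C

end

/-- The persistence theorem with structured output. -/
def StStruct : Prop :=
  ∀ (G : Type) [Group G] (E : Type) [NormedAddCommGroup E] [InnerProductSpace ℝ E]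
    [FiniteDimensional ℝ E] (E' : Type) [NormedAddCommGroup E'] [InnerProductSpace ℝ E']
    [FiniteDimensional ℝ E'] (α : G →* (E ≃ₗᵢ[ℝ] E)) (Qt : Set E) (Q : Set E') (P : E → E')
    (L : Set (E' × E')), IsCover α Qt Q P → HamIsotopicToZero Q L →
    ∃ C : ℝ, ∀ (a : ℝ) (V : Type) [NormedAddCommGroup V] [InnerProductSpace ℝ V]
      [FiniteDimensional ℝ V] (ρ : G →* (V ≃ₗᵢ[ℝ] V)) (F : E × V → ℝ),
      IsAdm α Qt a ρ F → IsGen Qt P L a C F →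
      ∃ (Z : Type) (_ : NormedAddCommGroup Z) (_ : InnerProductSpace ℝ Z)
        (_ : FiniteDimensional ℝ Z) (sg : E × Z → E) (w : E × (Z × Z) → ℝ),
        IsStr α Qt sg w ∧ IsAdm α Qt a (stRep Z ρ) (strF sg w F) ∧ IsRigid Qt a (strF sg w F) ∧
        ∀ b ∈ Qt, ∀ X : St V Z, dV (strF sg w F) b X = 0 →
          (|strF sg w F (b, X)| < a ↔ |F (sg (b, X.snd.fst), X.fst)| < a)

end Vale.Agent.P220Z.Per
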