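import Vale.Agent.P220Z.Per.Flow
import Vale.Agent.P220Z.Per.Defs2

/-!
# Short moves that are trivial for large momenta
-/

open Set Filter Topology
open scoped ContDiff RealInnerProductSpace

namespace Vale.Agent.P220Z.Per

open Vale.Agent.P220.R2 Vale.Agent.P220.R2.H481

theorem HF.supp {E : Type} [NormedAddCommGroup E] [InnerProductSpace ℝ E] [FiniteDimensional ℝ E]
    {K : ℝ × (E × E) → ℝ} (hK : ContDiff ℝ ∞ K) (hc : HasCompactSupport K) {C : ℝ}
    {ψ : ℝ × ℝ × (E × E) → E × E} {S : ℝ × ℝ × (E × E) → ℝ} (h : HF K C ψ S) :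
    ∃ R : ℝ, ∀ s t, ∀ z : E × E, R ≤ ‖z.2‖ → ψ (s, t, z) = z ∧ S (s, t, z) = 0 := by
  obtain ⟨R, hR⟩ := hc.isCompact.isBounded.exists_norm_le
  refine ⟨R + 1, fun s t z hz => ?_⟩
  have h0 : ∀ t, (t, z) ∉ tsupport K := by
    intro t ht
    have h1 := ((norm_snd_le z).trans (norm_snd_le (t, z))).trans (hR _ ht)
    linarith
  have h1 : ∀ u, ψ (s, u, z) = z := fun u => h.far hK h0 s u
  refine ⟨h1 t, ?_⟩
  have h2 : ∀ u, HasDerivAt (fun u => S (s, u, z)) 0 u := by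
    intro u
    have h3 := h.derivS s u z
    rw [h1 u, dH_zero (h0 u), xh_zero, image_eq_zero_of_notMem_tsupport (h0 u)] at h3
    simpa using h3
  have h4 := is_const_of_deriv_eq_zero (fun u => (h2 u).differentiableAt)
    (fun u => (h2 u).deriv) t s
  rw [h4, h.sameS]

theorem stFlowS : StFlowS := by
  intro E _ _ _ Q U r L hr hQ hL ε hε Λ
  obtain ⟨H, φ, hH, hφ, hL1⟩ := hL
  obtain ⟨Pr, hP⟩ := exists_proj_of_isRet hr
  obtain ⟨R₀, hR₀, hb⟩ := phi_bound hr hP hH hφ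
  obtain ⟨B₀, hB₀⟩ := hQ.isBounded.exists_norm_le
  set R := |Λ| * R₀ with hR
  have hR0 : 0 ≤ R := mul_nonneg (abs_nonneg _) hR₀
  obtain ⟨K, C, ψ, S, hc, h⟩ := exists_amb hH.smooth hr hP (M := |B₀| + R + 5)
    (by linarith [abs_nonneg B₀])
  obtain ⟨δ, hδ, hcl⟩ := h.hf.close h.hK hc
  obtain ⟨R₁, hR₁⟩ := h.hf.supp h.hK hc
  have hC : 0 < C := by linarith [h.one]
  obtain ⟨k, hk⟩ := exists_nat_gt (max (max C (4 * C / ε)) (1 / δ))
  have hk1 : C < k := ((le_max_left _ _).trans (le_max_left _ _)).trans_lt hk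
  have hk2 : 4 * C / ε < k := ((le_max_right _ _).trans (le_max_left _ _)).trans_lt hk
  have hk3 : 1 / δ < k := (le_max_right _ _).trans_lt hk
  have hk0 : (0 : ℝ) < k := hC.trans hk1
  have hZ : ∀ z : E × E, z.1 ∈ Q → z.2 = 0 → z ∈ H57.Cot Q := by
    intro z h1 h2
    refine ⟨h1, ?_⟩
    rw [h2, ← tan_eq_Tan, ← map_zero (Pr z.1)]
    exact hP.mem _ h1 _
  have hI : ∀ j : ℕ, j ≤ k → 1 - (j : ℝ) / k ∈ Icc (0 : ℝ) 1 := by
    intro j hj
    have h1 : (j : ℝ) / k ≤ 1 := (div_le_one hk0).2 (by exact_mod_cast hj)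
    have h2 : 0 ≤ (j : ℝ) / k := by positivity
    constructor <;> linarith
  refine ⟨k, 1, R, fun j => φ (1 - (j : ℝ) / k) '' {z | z.1 ∈ Q ∧ z.2 = 0}, ?_, ?_, ?_, ?_⟩
  · simpa using hL1
  · simp only [div_self hk0.ne', sub_self]
    ext z
    constructor
    · rintro ⟨y, hy, rfl⟩
      show φ 0 y ∈ _
      rwa [hφ.1 y (hZ y hy.1 hy.2)]
    · exact fun hz => ⟨z, hz, hφ.1 z (hZ z hz.1 hz.2)⟩
  · rintro j hj z ⟨y, hy, rfl⟩
    have h1 := hb y (hZ y hy.1 hy.2) hy.2 _ (hI j hj)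
    exact (mul_le_mul_of_nonneg_right (le_abs_self Λ) (norm_nonneg _)).trans
      (mul_le_mul_of_nonneg_left h1 (abs_nonneg _))
  · intro j hj
    have e : |1 - ((j + 1 : ℕ) : ℝ) / k - (1 - (j : ℝ) / k)| = 1 / k := by
      have : 1 - ((j + 1 : ℕ) : ℝ) / k - (1 - (j : ℝ) / k) = -(1 / k) := by
        push_cast
        ring
      rw [this, abs_neg, abs_of_pos (by positivity)]
    have hs := hI j hj.le
    have ht := hI (j + 1) hj
    refine ⟨_, _, h.isMove hH.smooth hr hP hφ (B := |B₀|)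
      (fun q hq => (hB₀ q hq).trans (le_abs_self _)) (abs_nonneg _) hR0 le_rfl hs ht ?_ ?_ ?_,
      R₁, fun τ _ z hz => hR₁ _ _ z hz⟩
    · rw [e, mul_one_div]
      exact (div_le_one hk0).2 hk1.le
    · rw [e, mul_one_div, div_le_div_iff₀ hk0 (by norm_num)]
      have := (div_lt_iff₀ hε).1 hk2
      linarith
    · intro u hu z w
      refine hcl _ hs u (uIcc_subset_Icc hs ht hu) z w ?_
      have h1 := abs_sub_left_of_mem_uIcc hu
      rw [e] at h1
      refine h1.trans ?_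
      rw [div_le_iff₀ hk0]
      have := (div_lt_iff₀ hδ).1 hk3
      linarith

end Vale.Agent.P220Z.Per
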