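import Vale.Agent.P220Z.Per.Main
import Vale.Agent.P220Z.Per.FlowS

/-!
# P220, persistence: the theorems
-/

namespace Vale.Agent.P220Z.Per

theorem gen : StGen := stGen stFlowS

theorem persist : StPersist := persist_of stFlowS

end Vale.Agent.P220Z.Per
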