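import Vale.Agent.P220.R2.H57.Tub
import Vale.Agent.P220.R2.H57.B.Defs

/-!
# P220, persistence of generating families: definitions and statements

`Qt ⊂ E` is a compact submanifold with an isometric action `α` of a group `G`, `P : E → E'` is a
`G`-invariant local diffeomorphism of `Qt` to `Q ⊂ E'`. A family is a smooth function `F (b, x)` of
`b ∈ E` and of `x` in a Euclidean `G`-space `V`, invariant for `b ∈ Qt`. The window is `|F| < a`.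
-/

open Set
open scoped ContDiff RealInnerProductSpace

namespace Vale.Agent.P220Z.Per

open Vale.Agent.P220.R2.H57

section Base

variable {G : Type} [Group G]
  {E : Type} [NormedAddCommGroup E] [InnerProductSpace ℝ E]
  {E' : Type} [NormedAddCommGroup E'] [InnerProductSpace ℝ E']

/-- `ν` is normal to `Q` at `q`. -/
def Nor (Q : Set E') (q ν : E') : Prop := ∀ v ∈ Tan Q q, ⟪ν, v⟫ = 0

/-- `P` is a `G`-invariant local diffeomorphism of the compact `G`-manifold `Qt` to `Q`. -/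
structure IsCover (α : G →* (E ≃ₗᵢ[ℝ] E)) (Qt : Set E) (Q : Set E') (P : E → E') : Prop where
  retT : ∃ U r, IsRet Qt U r
  cptT : IsCompact Qt
  ret : ∃ U r, IsRet Q U r
  cpt : IsCompact Q
  smooth : ContDiff ℝ ∞ P
  maps : ∀ b ∈ Qt, P b ∈ Q
  inj : ∀ b ∈ Qt, ∀ u ∈ Tan Qt b, fderiv ℝ P b u = 0 → u = 0
  surj : ∀ b ∈ Qt, ∀ v ∈ Tan Q (P b), ∃ u ∈ Tan Qt b, fderiv ℝ P b u = v
  act : ∀ g, ∀ b ∈ Qt, α g b ∈ Qt
  inv : ∀ g, ∀ b ∈ Qt, P (α g b) = P b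

/-- `σ (b, η)` lifts the displacement `P b + η` to `Qt`, for `‖η‖ ≤ 2 ε`. -/
structure IsLift (α : G →* (E ≃ₗᵢ[ℝ] E)) (Qt : Set E) (Q : Set E') (P : E → E') (ε : ℝ)
    (σ : E × E' → E) : Prop where
  pos : 0 < ε
  smooth : ContDiff ℝ ∞ σ
  zero : ∀ b, σ (b, 0) = b
  mem : ∀ b ∈ Qt, ∀ η, ‖η‖ ≤ 2 * ε → σ (b, η) ∈ Qt
  equi : ∀ g, ∀ b ∈ Qt, ∀ η, ‖η‖ ≤ 2 * ε → σ (α g b, η) = α g (σ (b, η))
  proj : ∀ b ∈ Qt, ∀ η, ‖η‖ ≤ 2 * ε → P b + η ∈ Q → P (σ (b, η)) = P b + η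
  tan : ∀ b ∈ Qt, ∀ η, ‖η‖ ≤ ε → ∀ η', fderiv ℝ σ (b, η) (0, η') ∈ Tan Qt (σ (b, η))
  diag : ∀ b ∈ Qt, ∀ η, ‖η‖ ≤ ε → ∀ u ∈ Tan Qt b, fderiv ℝ σ (b, η) (u, -fderiv ℝ P b u) = 0
  sec : ∀ b ∈ Qt, ∀ η, ‖η‖ ≤ ε → P b + η ∈ Q → ∀ u ∈ Tan Qt (σ (b, η)),
    fderiv ℝ σ (b, η) (0, fderiv ℝ P (σ (b, η)) u) = u

/-- A short Hamiltonian isotopy `ψ (τ, ·)`, `0 ≤ τ ≤ 1`, of `E' × E'` with action `S`. For momenta
of norm at most `R` its end induces on the covectors of `Q` a map that takes `A` to `B`. -/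
structure IsMove (Q : Set E') (A B : Set (E' × E')) (ε κ R : ℝ) (ψ : ℝ × (E' × E') → E' × E')
    (S : ℝ × (E' × E') → ℝ) : Prop where
  sψ : ContDiff ℝ ∞ ψ
  sS : ContDiff ℝ ∞ S
  ψ0 : ∀ z, ψ (0, z) = z
  S0 : ∀ z, S (0, z) = 0
  dS : ∀ τ ∈ Icc (0 : ℝ) 1, ∀ z w, fderiv ℝ (fun y => S (τ, y)) z w =
    ⟪(ψ (τ, z)).2, (fderiv ℝ (fun y => ψ (τ, y)) z w).1⟫ - ⟪z.2, w.1⟫
  near : ∀ τ ∈ Icc (0 : ℝ) 1, ∀ z, ‖(ψ (τ, z)).1 - z.1‖ ≤ ε / 4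
  dp : ∀ τ ∈ Icc (0 : ℝ) 1, ∀ z π, ‖(fderiv ℝ (fun y => ψ (τ, y)) z (0, π)).2 - π‖ ≤ ‖π‖ / 4
  dq : ∃ C, ∀ τ ∈ Icc (0 : ℝ) 1, ∀ z η, ‖(fderiv ℝ (fun y => ψ (τ, y)) z (η, 0)).2‖ ≤ C * ‖η‖
  act : ∀ τ ∈ Icc (0 : ℝ) 1, ∀ z, |S (τ, z)| ≤ κ
  back : ∀ z : E' × E', ‖z.2‖ ≤ R → (ψ (1, z)).1 ∈ Q → z.1 ∈ Q
  mem : ∀ z : E' × E', z.1 ∈ Q → ‖z.2‖ ≤ R → ∀ p, (z.1, p) ∈ A → Nor Q z.1 (z.2 - p) →
    ∃ p', ((ψ (1, z)).1, p') ∈ B ∧ Nor Q (ψ (1, z)).1 ((ψ (1, z)).2 - p')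
  inj : ∀ z z' : E' × E', z.1 ∈ Q → z'.1 ∈ Q → ‖z.2‖ ≤ R → ‖z'.2‖ ≤ R →
    (ψ (1, z)).1 = (ψ (1, z')).1 → Nor Q (ψ (1, z)).1 ((ψ (1, z)).2 - (ψ (1, z')).2) →
    z.1 = z'.1 ∧ Nor Q z.1 (z.2 - z'.2)
  onto : ∀ w ∈ B, ∃ z ∈ A, z.1 ∈ Q ∧ ∀ p, ‖p‖ ≤ R → Nor Q z.1 (p - z.2) →
    (ψ (1, (z.1, p))).1 = w.1 ∧ Nor Q w.1 ((ψ (1, (z.1, p))).2 - w.2)
  lin : ∀ z : E' × E', z.1 ∈ Q → ‖z.2‖ ≤ R → ∀ w, (fderiv ℝ (fun y => ψ (1, y)) z w).1 = 0 →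
    Nor Q (ψ (1, z)).1 (fderiv ℝ (fun y => ψ (1, y)) z w).2 → w.1 = 0 ∧ Nor Q z.1 w.2

end Base

section Fam

variable {G : Type} [Group G]
  {E : Type} [NormedAddCommGroup E] [InnerProductSpace ℝ E]
  {E' : Type} [NormedAddCommGroup E'] [InnerProductSpace ℝ E']
  {V : Type} [NormedAddCommGroup V] [InnerProductSpace ℝ V]

/-- the differential of `F` along the fibre -/
noncomputable def dV (F : E × V → ℝ) (b : E) (x : V) : V →L[ℝ] ℝ := fderiv ℝ (fun y => F (b, y)) x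

/-- A homotopy `K (s, ·)`, `0 ≤ s ≤ 1`, of invariant families, with a uniform lower bound for the
fibre gradient at infinity and without fibre critical values near `a` and `-a`. -/
structure IsHtpy (α : G →* (E ≃ₗᵢ[ℝ] E)) (Qt : Set E) (a : ℝ) (ρ : G →* (V ≃ₗᵢ[ℝ] V))
    (K : ℝ × (E × V) → ℝ) : Prop where
  smooth : ContDiff ℝ ∞ K
  inv : ∀ s ∈ Icc (0 : ℝ) 1, ∀ g, ∀ b ∈ Qt, ∀ x, K (s, (α g b, ρ g x)) = K (s, (b, x))
  far : ∃ c > 0, ∃ R, ∀ s ∈ Icc (0 : ℝ) 1, ∀ b ∈ Qt, ∀ x, R ≤ ‖x‖ →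
    c ≤ ‖dV (fun w => K (s, w)) b x‖
  gap : ∀ s ∈ Icc (0 : ℝ) 1, ∀ b ∈ Qt, ∀ x, dV (fun w => K (s, w)) b x = 0 →
    |K (s, (b, x))| ≤ a - 1 ∨ a + 1 ≤ |K (s, (b, x))|

/-- An admissible family. -/
structure IsAdm (α : G →* (E ≃ₗᵢ[ℝ] E)) (Qt : Set E) (a : ℝ) (ρ : G →* (V ≃ₗᵢ[ℝ] V))
    (F : E × V → ℝ) : Prop where
  smooth : ContDiff ℝ ∞ F
  inv : ∀ g, ∀ b ∈ Qt, ∀ x, F (α g b, ρ g x) = F (b, x)
  far : ∃ c > 0, ∃ R, ∀ b ∈ Qt, ∀ x, R ≤ ‖x‖ → c ≤ ‖dV F b x‖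
  gap : ∀ b ∈ Qt, ∀ x, dV F b x = 0 → |F (b, x)| ≤ a - 1 ∨ a + 1 ≤ |F (b, x)|

/-- the covector `p` at `P b` pulls back to the differential of `F` along `Qt` -/
def Cov (Qt : Set E) (P : E → E') (F : E × V → ℝ) (b : E) (x : V) (p : E') : Prop :=
  ∀ u ∈ Tan Qt b, ⟪p, fderiv ℝ P b u⟫ = fderiv ℝ F (b, x) (u, 0)

/-- `y ↦ dF (b, y)`, restricted to `T_b Qt × V`, has an injective derivative at `x` -/
def Reg (Qt : Set E) (F : E × V → ℝ) (b : E) (x : V) : Prop :=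
  ∀ v : V, (∀ u ∈ Tan Qt b, ∀ w : V,
    HasDerivAt (fun t : ℝ => fderiv ℝ F (b, x + t • v) (u, w)) 0 0) → v = 0

/-- The fibre critical points of `F` in the window generate `L`; there is no fibre critical value
within `m` of `a` and `-a`. -/
structure IsGen (Qt : Set E) (P : E → E') (L : Set (E' × E')) (a m : ℝ) (F : E × V → ℝ) :
    Prop where
  gap : ∀ b ∈ Qt, ∀ x, dV F b x = 0 → |F (b, x)| ≤ a - m ∨ a + m ≤ |F (b, x)|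
  mem : ∀ b ∈ Qt, ∀ x, dV F b x = 0 → |F (b, x)| < a → ∃ p, (P b, p) ∈ L ∧ Cov Qt P F b x p
  inj : ∀ b ∈ Qt, ∀ x x', dV F b x = 0 → dV F b x' = 0 → |F (b, x)| < a → |F (b, x')| < a →
    (∀ u ∈ Tan Qt b, fderiv ℝ F (b, x) (u, 0) = fderiv ℝ F (b, x') (u, 0)) → x = x'
  onto : ∀ b ∈ Qt, ∀ p, (P b, p) ∈ L → ∃ x, dV F b x = 0 ∧ |F (b, x)| < a ∧ Cov Qt P F b x p
  reg : ∀ b ∈ Qt, ∀ x, dV F b x = 0 → |F (b, x)| < a → Reg Qt F b x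

/-- Over each point of `Qt` there is exactly one fibre critical point in the window, and its
Hessian is nondegenerate. -/
def IsRigid (Qt : Set E) (a : ℝ) (F : E × V → ℝ) : Prop :=
  ∀ b ∈ Qt, ∃ x, dV F b x = 0 ∧ |F (b, x)| < a ∧ Function.Injective (fderiv ℝ (dV F b) x) ∧
    ∀ x', dV F b x' = 0 → |F (b, x')| < a → x' = x

/-- the fibre with two new variables `ξ`, `p` in `W` -/
abbrev St (V W : Type) : Type := WithLp 2 (V × WithLp 2 (W × W))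

/-- the action on the new fibre, trivial on the new variables -/
noncomputable def stRep (W : Type) [NormedAddCommGroup W] [InnerProductSpace ℝ W]
    (ρ : G →* (V ≃ₗᵢ[ℝ] V)) : G →* (St V W ≃ₗᵢ[ℝ] St V W) where
  toFun g := LinearIsometryEquiv.withLpProdCongr 2 (ρ g) (LinearIsometryEquiv.refl ℝ _)
  map_one' := by
    ext x : 1
    rw [map_one]
    rfl
  map_mul' g h := by
    ext x : 1
    simp

/-- the stabilised family `F (b, x) - ⟪p, ξ⟫` -/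
noncomputable def stF (W : Type) [NormedAddCommGroup W] [InnerProductSpace ℝ W] (F : E × V → ℝ) :
    E × St V W → ℝ :=
  fun w => F (w.1, w.2.fst) - ⟪w.2.snd.snd, w.2.snd.fst⟫

end Fam

/-- properties of families over `E` with a Euclidean `G`-space as fibre -/
abbrev FamPred (G : Type) [Group G] (E : Type) : Type 1 :=
  ∀ (V : Type) [NormedAddCommGroup V] [InnerProductSpace ℝ V] [FiniteDimensional ℝ V],
    (G →* (V ≃ₗᵢ[ℝ] V)) → (E × V → ℝ) → Prop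

/-- `N` is invariant under homotopy and under stabilisation with new variables in `W` -/
structure IsStable {G : Type} [Group G] {E : Type} [NormedAddCommGroup E] [InnerProductSpace ℝ E]
    (α : G →* (E ≃ₗᵢ[ℝ] E)) (Qt : Set E) (a : ℝ) (W : Type) [NormedAddCommGroup W]
    [InnerProductSpace ℝ W] [FiniteDimensional ℝ W] (N : FamPred G E) : Prop where
  htpy : ∀ (V : Type) [NormedAddCommGroup V] [InnerProductSpace ℝ V] [FiniteDimensional ℝ V]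
    (ρ : G →* (V ≃ₗᵢ[ℝ] V)) (K : ℝ × (E × V) → ℝ), IsHtpy α Qt a ρ K →
    N V ρ (fun w => K (0, w)) → N V ρ (fun w => K (1, w))
  stab : ∀ (V : Type) [NormedAddCommGroup V] [InnerProductSpace ℝ V] [FiniteDimensional ℝ V]
    (ρ : G →* (V ≃ₗᵢ[ℝ] V)) (F : E × V → ℝ), IsAdm α Qt a ρ F →
    N V ρ F → N (St V W) (stRep W ρ) (stF W F)

/-- S1: lifts exist. -/
def StLift : Prop :=
  ∀ (G : Type) [Group G] (E : Type) [NormedAddCommGroup E] [InnerProductSpace ℝ E]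
    [FiniteDimensional ℝ E] (E' : Type) [NormedAddCommGroup E'] [InnerProductSpace ℝ E']
    [FiniteDimensional ℝ E'] (α : G →* (E ≃ₗᵢ[ℝ] E)) (Qt : Set E) (Q : Set E') (P : E → E'),
    IsCover α Qt Q P → ∃ ε σ, IsLift α Qt Q P ε σ

/-- S2: a Hamiltonian isotopy is cut into short moves from `L` back to the zero section. -/
def StFlow : Prop :=
  ∀ (E' : Type) [NormedAddCommGroup E'] [InnerProductSpace ℝ E'] [FiniteDimensional ℝ E']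
    (Q U : Set E') (r : E' → E') (L : Set (E' × E')), IsRet Q U r → IsCompact Q →
    HamIsotopicToZero Q L → ∀ ε > 0, ∀ Λ : ℝ, ∃ (k : ℕ) (κ R : ℝ) (A : ℕ → Set (E' × E')),
      A 0 = L ∧ A k = {z | z.1 ∈ Q ∧ z.2 = 0} ∧ (∀ j ≤ k, ∀ z ∈ A j, Λ * ‖z.2‖ ≤ R) ∧
      ∀ j < k, ∃ ψ S, IsMove Q (A j) (A (j + 1)) ε κ R ψ S

/-- S3: a family that generates the zero section is rigid. -/
def StRigid : Prop :=
  ∀ (E : Type) [NormedAddCommGroup E] [InnerProductSpace ℝ E] [FiniteDimensional ℝ E]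
    (E' : Type) [NormedAddCommGroup E'] [InnerProductSpace ℝ E']
    (V : Type) [NormedAddCommGroup V] [InnerProductSpace ℝ V] [FiniteDimensional ℝ V]
    (Qt U : Set E) (r : E → E) (Q : Set E') (P : E → E') (a m : ℝ) (F : E × V → ℝ),
    IsRet Qt U r → (∀ b ∈ Qt, P b ∈ Q) → 0 < m → ContDiff ℝ ∞ F →
    IsGen Qt P {z | z.1 ∈ Q ∧ z.2 = 0} a m F → IsRigid Qt a F

/-- The persistence theorem. -/
def StPersist : Prop :=
  ∀ (G : Type) [Group G] (E : Type) [NormedAddCommGroup E] [InnerProductSpace ℝ E]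
    [FiniteDimensional ℝ E] (E' : Type) [NormedAddCommGroup E'] [InnerProductSpace ℝ E']
    [FiniteDimensional ℝ E'] (α : G →* (E ≃ₗᵢ[ℝ] E)) (Qt : Set E) (Q : Set E') (P : E → E')
    (L : Set (E' × E')), IsCover α Qt Q P → HamIsotopicToZero Q L →
    ∃ C : ℝ, ∀ (a : ℝ) (N : FamPred G E), IsStable α Qt a E' N →
      ∀ (V : Type) [NormedAddCommGroup V] [InnerProductSpace ℝ V] [FiniteDimensional ℝ V]
        (ρ : G →* (V ≃ₗᵢ[ℝ] V)) (F : E × V → ℝ), IsAdm α Qt a ρ F → IsGen Qt P L a C F →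
        N V ρ F →
        ∃ (V' : Type) (_ : NormedAddCommGroup V') (_ : InnerProductSpace ℝ V')
          (_ : FiniteDimensional ℝ V') (ρ' : G →* (V' ≃ₗᵢ[ℝ] V')) (F' : E × V' → ℝ),
          IsAdm α Qt a ρ' F' ∧ IsRigid Qt a F' ∧ N V' ρ' F'

end Vale.Agent.P220Z.Per
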