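import Vale.Agent.P220Z.Per.FlowC

/-!
# A Hamiltonian isotopy is cut into short moves
-/

open Set Filter Topology
open scoped ContDiff RealInnerProductSpace

namespace Vale.Agent.P220Z.Per

open Vale.Agent.P220.R2 Vale.Agent.P220.R2.H481

set_option linter.unusedSectionVars false

variable {E : Type} [NormedAddCommGroup E] [InnerProductSpace ℝ E] [FiniteDimensional ℝ E]
  {Q U : Set E} {r : E → E} {Pr : E → E →L[ℝ] E}
  {H K : ℝ × (E × E) → ℝ} {M C : ℝ} {ψ : ℝ × ℝ × (E × E) → E × E}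
  {S : ℝ × ℝ × (E × E) → ℝ}

theorem Amb.isMove (h : Amb Q r Pr H K M C ψ S) (hH : ContDiff ℝ ∞ H) (hr : H57.IsRet Q U r)
    (hP : IsProj Q Pr) {φ : ℝ → E × E → E × E} (hφ : H57.IsHamFlow Q H φ) {B R ε : ℝ}
    (hB : ∀ q ∈ Q, ‖q‖ ≤ B) (hB0 : 0 ≤ B) (hR0 : 0 ≤ R) (hM : B + R + 5 ≤ M) {s t : ℝ}
    (hs : s ∈ Icc (0 : ℝ) 1) (ht : t ∈ Icc (0 : ℝ) 1) (hst : C * |t - s| ≤ 1)
    (hε : C * |t - s| ≤ ε / 4)
    (hcl : ∀ u ∈ uIcc s t, ∀ z w, ‖fderiv ℝ (fun y => ψ (s, u, y)) z w - w‖ ≤ ‖w‖ / 4) :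
    IsMove Q (φ s '' {z | z.1 ∈ Q ∧ z.2 = 0}) (φ t '' {z | z.1 ∈ Q ∧ z.2 = 0}) ε 1 R
      (fun x => ψ (s, s + x.1 * (t - s), x.2)) (fun x => S (s, s + x.1 * (t - s), x.2)) := by
  have hC0 : 0 ≤ C := by linarith [h.one]
  have hin : ContDiff ℝ ∞ fun x : ℝ × (E × E) => (s, s + x.1 * (t - s), x.2) :=
    contDiff_const.prodMk ((contDiff_const.add (contDiff_fst.mul contDiff_const)).prodMk
      contDiff_snd)
  have hm : ∀ τ ∈ Icc (0 : ℝ) 1, s + τ * (t - s) ∈ uIcc s t := by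
    intro τ hτ
    rcases le_total s t with h1 | h1
    · rw [uIcc_of_le h1]
      constructor <;> nlinarith [hτ.1, hτ.2]
    · rw [uIcc_of_ge h1]
      constructor <;> nlinarith [hτ.1, hτ.2]
  have hle : ∀ τ ∈ Icc (0 : ℝ) 1, C * |s + τ * (t - s) - s| ≤ C * |t - s| := fun τ hτ =>
    mul_le_mul_of_nonneg_left (abs_sub_left_of_mem_uIcc (hm τ hτ)) hC0
  have e1 : s + 1 * (t - s) = t := by ring
  have hts : C * |s - t| ≤ 1 := by rwa [abs_sub_comm]
  have hZ : ∀ z : E × E, z.1 ∈ Q → z.2 = 0 → z ∈ H57.Cot Q := by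
    intro z h1 h2
    refine ⟨h1, ?_⟩
    rw [h2, ← tan_eq_Tan, ← map_zero (Pr z.1)]
    exact hP.mem _ h1 _
  have small : ∀ z : E × E, z.1 ∈ Q → ‖z.2‖ ≤ R + 2 → ‖z‖ ≤ M - 2 := by
    intro z h1 h2
    rw [Prod.norm_def]
    exact max_le (by linarith [hB _ h1]) (by linarith)
  have snd_le : ∀ z : E × E, ‖z.2‖ ≤ R → ‖(ψ (s, t, z)).2‖ ≤ R + 1 := by
    intro z hz
    have h1 := (norm_snd_le (ψ (s, t, z) - z)).trans (h.hf.move s t z)
    have h2 := norm_le_norm_add_norm_sub' (ψ (s, t, z)).2 z.2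
    rw [Prod.snd_sub] at h1
    linarith
  have back : ∀ z : E × E, ‖z.2‖ ≤ R → (ψ (s, t, z)).1 ∈ Q → z.1 ∈ Q := by
    intro z hz hq
    have h1 := h.stay hH hr hP ht hs hts (small _ hq (by linarith [snd_le z hz])) hq
    rwa [h.hf.inverse h.hK] at h1
  refine ⟨h.hf.smooth.comp hin, h.hf.smoothS.comp hin, fun z => ?_, fun z => ?_,
    fun τ _ z w => h.hf.dS s (s + τ * (t - s)) z w, fun τ hτ z => ?_, fun τ hτ z π => ?_,
    ⟨1, fun τ hτ z η => ?_⟩, fun τ hτ z => ?_, ?_, ?_, ?_, ?_, ?_⟩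
  · simp [h.hf.same]
  · simp [h.hf.sameS]
  · have h1 := (norm_fst_le (ψ (s, s + τ * (t - s), z) - z)).trans (h.hf.move s _ z)
    exact h1.trans ((hle τ hτ).trans hε)
  · have h1 := (norm_snd_le _).trans (hcl _ (hm τ hτ) z (0, π))
    simpa using h1
  · have h1 := (norm_snd_le _).trans (hcl _ (hm τ hτ) z (η, 0))
    have h2 : ‖(fderiv ℝ (fun y => ψ (s, s + τ * (t - s), y)) z (η, 0)).2‖ ≤ ‖η‖ / 4 := by
      simpa using h1
    linarith [norm_nonneg η]
  · exact (h.hf.act s _ z).trans ((hle τ hτ).trans hst)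
  · simpa only [e1] using back
  · simp only [e1]
    rintro z hq hz p ⟨z₀, hz₀, h0⟩ hn
    have hc := hZ z₀ hz₀.1 hz₀.2
    have hp : p ∈ H57.Tan Q z.1 := by
      have := (hφ.2 z₀ hc s hs).1
      rw [h0] at this
      exact this.2
    have h1 := h.traj hH hr hP hφ hs ht hst (small z hq (by linarith)) hq hc
      ((red_eq hP hq hp hn).trans h0.symm)
    have h2 := h.stay hH hr hP hs ht hst (small z hq (by linarith)) hq
    refine ⟨Pr (ψ (s, t, z)).1 (ψ (s, t, z)).2, ⟨z₀, hz₀, h1.symm⟩, (nor_iff hP h2).2 ?_⟩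
    rw [map_sub, hP.sq h2, sub_self]
  · simp only [e1]
    intro z z' hq hq' hz hz' h1 hn
    have h2 := h.stay hH hr hP hs ht hst (small z hq (by linarith)) hq
    have h2' := h.stay hH hr hP hs ht hst (small z' hq' (by linarith)) hq'
    have h3 : red Pr (ψ (s, t, z)) = red Pr (ψ (s, t, z')) := by
      refine Prod.ext h1 ?_
      have h4 := (nor_iff hP h2).1 hn
      rw [map_sub, sub_eq_zero] at h4
      show Pr (ψ (s, t, z)).1 (ψ (s, t, z)).2 = Pr (ψ (s, t, z')).1 (ψ (s, t, z')).2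
      rw [← h1]
      exact h4
    have h5 := h.leaf hH hr hP ht hs hts (small _ h2 (by linarith [snd_le z hz]))
      (small _ h2' (by linarith [snd_le z' hz'])) h2 h2' h3
    rw [h.hf.inverse h.hK, h.hf.inverse h.hK] at h5
    have h6 : z.1 = z'.1 := (congrArg Prod.fst h5 :)
    have h7 : Pr z.1 z.2 = Pr z'.1 z'.2 := (congrArg Prod.snd h5 :)
    refine ⟨h6, (nor_iff hP hq).2 ?_⟩
    rw [map_sub, h7, h6, sub_self]
  · simp only [e1]
    rintro w ⟨z₀, hz₀, rfl⟩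
    have hc := hZ z₀ hz₀.1 hz₀.2
    have h0 := (hφ.2 z₀ hc s hs).1
    have h0' := (hφ.2 z₀ hc t ht).1
    refine ⟨φ s z₀, ⟨z₀, hz₀, rfl⟩, h0.1, fun p hp hn => ?_⟩
    have h1 := h.traj hH hr hP hφ hs ht hst (z := ((φ s z₀).1, p))
      (small _ h0.1 (by linarith)) h0.1 hc (red_eq hP h0.1 h0.2 hn)
    have h2 : (ψ (s, t, ((φ s z₀).1, p))).1 = (φ t z₀).1 := (congrArg Prod.fst h1 :)
    have h3 : Pr (ψ (s, t, ((φ s z₀).1, p))).1 (ψ (s, t, ((φ s z₀).1, p))).2 = (φ t z₀).2 :=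
      (congrArg Prod.snd h1 :)
    refine ⟨h2, (nor_iff hP h0'.1).2 ?_⟩
    rw [h2] at h3
    have h4 := h0'.2
    rw [← tan_eq_Tan] at h4
    rw [map_sub, h3, hP.id _ h0'.1 _ h4, sub_self]
  · simp only [e1]
    intro z hq hz w h1 hn
    set z' := ψ (s, t, z) with hz'
    set w' := fderiv ℝ (fun y => ψ (s, t, y)) z w with hw'
    have h2 : z'.1 ∈ Q := h.stay hH hr hP hs ht hst (small z hq (by linarith)) hq
    have hν : Pr z'.1 w'.2 = 0 := (nor_iff hP h2).1 hn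
    have sm : ∀ a b, ContDiff ℝ ∞ fun y => ψ (a, b, y) := fun a b =>
      h.hf.smooth.comp (contDiff_const.prodMk (contDiff_const.prodMk contDiff_id))
    have d1 : HasFDerivAt (fun y => ψ (t, s, y)) (fderiv ℝ (fun y => ψ (t, s, y)) z') z' :=
      ((sm t s).differentiable (by simp) z').hasFDerivAt
    have d2 : HasFDerivAt (fun y => ψ (s, t, y)) (fderiv ℝ (fun y => ψ (s, t, y)) z) z :=
      ((sm s t).differentiable (by simp) z).hasFDerivAt
    have d3 : fderiv ℝ (fun y => ψ (t, s, y)) z' w' = w := by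
      have d4 := d1.comp z d2
      have d5 : ((fun y => ψ (t, s, y)) ∘ fun y => ψ (s, t, y)) = id :=
        funext fun y => h.hf.inverse h.hK s t y
      rw [d5] at d4
      exact congrArg (fun L => L w) (d4.unique (hasFDerivAt_id z))
    have hl : HasDerivAt (fun u : ℝ => z' + u • w') w' 0 := by
      simpa using ((hasDerivAt_id (0 : ℝ)).smul_const w').const_add z'
    have d6 : HasDerivAt (fun u : ℝ => ψ (t, s, z' + u • w')) w 0 := by
      have d7 : HasFDerivAt (fun y => ψ (t, s, y)) (fderiv ℝ (fun y => ψ (t, s, y)) z')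
          (z' + (0 : ℝ) • w') := by simpa using d1
      have d8 := d7.comp_hasDerivAt (0 : ℝ) hl
      rw [d3] at d8
      exact d8
    have d9 := red_deriv hP d6
    have hz'2 : ‖z'.2‖ ≤ R + 1 := snd_le z hz
    have ev : (fun u : ℝ => red Pr (ψ (t, s, z' + u • w'))) =ᶠ[𝓝 0]
        fun _ => red Pr (ψ (t, s, z')) := by
      have c1 : Tendsto (fun u : ℝ => ‖(z' + u • w').2‖) (𝓝 0) (𝓝 ‖(z' + (0 : ℝ) • w').2‖) :=
        (hasDerivAt_snd hl).continuousAt.norm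
      have c2 := c1.eventually (gt_mem_nhds (show ‖(z' + (0 : ℝ) • w').2‖ < R + 2 by
        simpa using by linarith))
      filter_upwards [c2] with u hu
      have c3 : (z' + u • w').1 = z'.1 := by simp [h1]
      refine h.leaf hH hr hP ht hs hts (small _ (c3 ▸ h2) hu.le) (small _ h2 (by linarith))
        (c3 ▸ h2) h2 (Prod.ext c3 ?_)
      show Pr (z' + u • w').1 (z' + u • w').2 = Pr z'.1 z'.2
      rw [c3]
      simp [hν]
    have d10 := d9.unique ((hasDerivAt_const (0 : ℝ) _).congr_of_eventuallyEq ev)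
    have i1 : ψ (t, s, z' + (0 : ℝ) • w') = z := by
      simpa using h.hf.inverse h.hK s t z
    rw [i1] at d10
    have f1 : w.1 = 0 := congrArg Prod.fst d10
    have f2 : fderiv ℝ Pr z.1 w.1 z.2 + Pr z.1 w.2 = 0 := congrArg Prod.snd d10
    rw [f1, map_zero, zero_apply, zero_add] at f2
    exact ⟨f1, (nor_iff hP hq).2 f2⟩

theorem stFlow : StFlow := by
  intro E _ _ _ Q U r L hr hQ hL ε hε Λ
  obtain ⟨H, φ, hH, hφ, hL1⟩ := hL
  obtain ⟨Pr, hP⟩ := exists_proj_of_isRet hr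
  obtain ⟨R₀, hR₀, hb⟩ := phi_bound hr hP hH hφ
  obtain ⟨B₀, hB₀⟩ := hQ.isBounded.exists_norm_le
  set R := |Λ| * R₀ with hR
  have hR0 : 0 ≤ R := mul_nonneg (abs_nonneg _) hR₀
  obtain ⟨K, C, ψ, S, hc, h⟩ := exists_amb hH.smooth hr hP (M := |B₀| + R + 5)
    (by linarith [abs_nonneg B₀])
  obtain ⟨δ, hδ, hcl⟩ := h.hf.close h.hK hc
  have hC : 0 < C := by linarith [h.one]
  obtain ⟨k, hk⟩ := exists_nat_gt (max (max C (4 * C / ε)) (1 / δ))
  have hk1 : C < k := ((le_max_left _ _).trans (le_max_left _ _)).trans_lt hk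
  have hk2 : 4 * C / ε < k := ((le_max_right _ _).trans (le_max_left _ _)).trans_lt hk
  have hk3 : 1 / δ < k := (le_max_right _ _).trans_lt hk
  have hk0 : (0 : ℝ) < k := hC.trans hk1
  have hZ : ∀ z : E × E, z.1 ∈ Q → z.2 = 0 → z ∈ H57.Cot Q := by
    intro z h1 h2
    refine ⟨h1, ?_⟩
    rw [h2, ← tan_eq_Tan, ← map_zero (Pr z.1)]
    exact hP.mem _ h1 _
  have hI : ∀ j : ℕ, j ≤ k → 1 - (j : ℝ) / k ∈ Icc (0 : ℝ) 1 := by
    intro j hj
    have h1 : (j : ℝ) / k ≤ 1 := (div_le_one hk0).2 (by exact_mod_cast hj)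
    have h2 : 0 ≤ (j : ℝ) / k := by positivity
    constructor <;> linarith
  refine ⟨k, 1, R, fun j => φ (1 - (j : ℝ) / k) '' {z | z.1 ∈ Q ∧ z.2 = 0}, ?_, ?_, ?_, ?_⟩
  · simpa using hL1
  · simp only [div_self hk0.ne', sub_self]
    ext z
    constructor
    · rintro ⟨y, hy, rfl⟩
      show φ 0 y ∈ _
      rwa [hφ.1 y (hZ y hy.1 hy.2)]
    · exact fun hz => ⟨z, hz, hφ.1 z (hZ z hz.1 hz.2)⟩
  · rintro j hj z ⟨y, hy, rfl⟩
    have h1 := hb y (hZ y hy.1 hy.2) hy.2 _ (hI j hj)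
    exact (mul_le_mul_of_nonneg_right (le_abs_self Λ) (norm_nonneg _)).trans
      (mul_le_mul_of_nonneg_left h1 (abs_nonneg _))
  · intro j hj
    have e : |1 - ((j + 1 : ℕ) : ℝ) / k - (1 - (j : ℝ) / k)| = 1 / k := by
      have : 1 - ((j + 1 : ℕ) : ℝ) / k - (1 - (j : ℝ) / k) = -(1 / k) := by
        push_cast
        ring
      rw [this, abs_neg, abs_of_pos (by positivity)]
    have hs := hI j hj.le
    have ht := hI (j + 1) hj
    refine ⟨_, _, h.isMove hH.smooth hr hP hφ (B := |B₀|)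
      (fun q hq => (hB₀ q hq).trans (le_abs_self _)) (abs_nonneg _) hR0 le_rfl hs ht ?_ ?_ ?_⟩
    · rw [e, mul_one_div]
      exact (div_le_one hk0).2 hk1.le
    · rw [e, mul_one_div, div_le_div_iff₀ hk0 (by norm_num)]
      have := (div_lt_iff₀ hε).1 hk2
      linarith
    · intro u hu z w
      refine hcl _ hs u (uIcc_subset_Icc hs ht hu) z w ?_
      have h1 := abs_sub_left_of_mem_uIcc hu
      rw [e] at h1
      refine h1.trans ?_
      rw [div_le_iff₀ hk0]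
      have := (div_lt_iff₀ hδ).1 hk3
      linarith

end Vale.Agent.P220Z.Per
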