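import Vale.Agent.P220Z.Per.FlowDefs

/-!
# Hamiltonian flows on `E × E` with their action
-/

open Set Filter Topology
open scoped ContDiff RealInnerProductSpace

namespace Vale.Agent.P220Z.Per

open Vale.Agent.P220.R2 Vale.Agent.P220.R2.H481

set_option linter.unusedSectionVars false

section Gen

variable {F : Type} [NormedAddCommGroup F] [NormedSpace ℝ F] [FiniteDimensional ℝ F]

/-- the variational equation -/
theorem flow_var {Y : F → F} {Φ : ℝ → F → F} (hY : ContDiff ℝ ∞ Y) (h : H57.IsFlow Y Φ)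
    (z w : F) (t : ℝ) :
    HasDerivAt (fun s => fderiv ℝ (Φ s) z w) (fderiv ℝ Y (Φ t z) (fderiv ℝ (Φ t) z w)) t := by
  set G : ℝ × F → F := fun q => Φ q.1 q.2 with hG
  have hGs : ContDiff ℝ ∞ G := h.smooth
  have hGd : ∀ q, HasFDerivAt G (fderiv ℝ G q) q := fun q =>
    (hGs.differentiable (by simp) q).hasFDerivAt
  have e1 : ∀ s y v, fderiv ℝ (Φ s) y v = fderiv ℝ G (s, y) (0, v) := by
    intro s y v
    have h1 : HasFDerivAt (Φ s) ((fderiv ℝ G (s, y)).comp (ContinuousLinearMap.inr ℝ ℝ F)) y :=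
      (hGd (s, y)).comp y (hasFDerivAt_prodMk_right s y)
    rw [h1.fderiv]
    rfl
  have e2 : ∀ q : ℝ × F, fderiv ℝ G q (1, 0) = Y (G q) := by
    rintro ⟨s, y⟩
    have h0 : HasDerivAt (fun s : ℝ => (s, y)) ((1, 0) : ℝ × F) s :=
      (hasDerivAt_id s).prodMk (hasDerivAt_const s y)
    have h1 : HasDerivAt (fun s => G (s, y)) (fderiv ℝ G (s, y) (1, 0)) s := by
      have := (hGd (s, y)).comp_hasDerivAt s h0
      exact this
    exact h1.unique (h.deriv s y)
  have h2 : HasDerivAt (fun s => fderiv ℝ G (s, z) (0, w))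
      (fderiv ℝ (fderiv ℝ G) (t, z) (1, 0) (0, w)) t :=
    hasDerivAt_fderiv_line' hGs (c := fun s => (s, z))
      ((hasDerivAt_id t).prodMk (hasDerivAt_const t z)) (0, w)
  have h3 : HasDerivAt (fun u : ℝ => fderiv ℝ G (t, z + u • w) (1, 0))
      (fderiv ℝ (fderiv ℝ G) (t, z + (0 : ℝ) • w) (0, w) (1, 0)) 0 := by
    refine hasDerivAt_fderiv_line' hGs (c := fun u : ℝ => (t, z + u • w)) ?_ (1, 0)
    refine (hasDerivAt_const (0 : ℝ) t).prodMk ?_
    simpa using ((hasDerivAt_id (0 : ℝ)).smul_const w).const_add z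
  have h4 : HasDerivAt (fun u : ℝ => Y (G (t, z + u • w)))
      (fderiv ℝ Y (Φ t z) (fderiv ℝ (Φ t) z w)) 0 := by
    have h5 : HasDerivAt (fun u : ℝ => z + u • w) w 0 := by
      simpa using ((hasDerivAt_id (0 : ℝ)).smul_const w).const_add z
    have h6 : HasFDerivAt (Φ t) (fderiv ℝ (Φ t) z) (z + (0 : ℝ) • w) := by
      simpa using h.hasFDerivAt t z
    have h7 := h6.comp_hasDerivAt (0 : ℝ) h5
    have h8 : HasFDerivAt Y (fderiv ℝ Y (Φ t z)) (Φ t (z + (0 : ℝ) • w)) := by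
      simpa using (hY.differentiable (by simp) (Φ t z)).hasFDerivAt
    exact h8.comp_hasDerivAt (0 : ℝ) h7
  simp only [e2] at h3
  have h9 := h3.unique h4
  rw [zero_smul, add_zero, second_symm' hGs] at h9
  rw [h9] at h2
  simpa only [e1] using h2

/-- uniqueness for smooth time-dependent equations on a segment -/
theorem ode_uniq {Y : ℝ × F → F} (hY : ContDiff ℝ ∞ Y) {a b s : ℝ} {f g : ℝ → F}
    (hf : ∀ t ∈ Icc a b, HasDerivWithinAt f (Y (t, f t)) (Icc a b) t)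
    (hg : ∀ t ∈ Icc a b, HasDerivWithinAt g (Y (t, g t)) (Icc a b) t)
    (hs : s ∈ Icc a b) (h : f s = g s) : ∀ t ∈ Icc a b, f t = g t := by
  have hfc : ContinuousOn f (Icc a b) := fun t ht => (hf t ht).continuousWithinAt
  have hgc : ContinuousOn g (Icc a b) := fun t ht => (hg t ht).continuousWithinAt
  obtain ⟨R1, h1⟩ := isCompact_Icc.exists_bound_of_continuousOn hfc
  obtain ⟨R2, h2⟩ := isCompact_Icc.exists_bound_of_continuousOn hgc
  set B : Set F := Metric.closedBall 0 (max R1 R2) with hB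
  have hK : IsCompact (Icc a b ×ˢ B) := isCompact_Icc.prod (isCompact_closedBall _ _)
  obtain ⟨K, hKl⟩ : ∃ K, LipschitzOnWith K Y (Icc a b ×ˢ B) :=
    ((hY.of_le (show (1 : WithTop ℕ∞) ≤ ∞ by simp)).locallyLipschitz.locallyLipschitzOn).exists_lipschitzOnWith_of_compact hK
  have hv : ∀ t ∈ Icc a b, LipschitzOnWith K (fun x => Y (t, x)) B := by
    intro t ht
    refine LipschitzOnWith.of_dist_le_mul fun x hx y hy => ?_
    have := hKl.dist_le_mul (t, x) ⟨ht, hx⟩ (t, y) ⟨ht, hy⟩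
    simpa using this
  have fB : ∀ t ∈ Icc a b, f t ∈ B := fun t ht =>
    mem_closedBall_zero_iff.2 ((h1 t ht).trans (le_max_left _ _))
  have gB : ∀ t ∈ Icc a b, g t ∈ B := fun t ht =>
    mem_closedBall_zero_iff.2 ((h2 t ht).trans (le_max_right _ _))
  intro t ht
  rcases le_total s t with hst | hst
  · have hsub : Icc s t ⊆ Icc a b := Icc_subset_Icc hs.1 ht.2
    have hsub' : Ico s t ⊆ Ico a b := Ico_subset_Ico hs.1 ht.2
    exact ODE_solution_unique_of_mem_Icc_right (v := fun t x => Y (t, x)) (s := fun _ => B)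
      (K := K) (a := s) (b := t) (fun u hu => hv u (hsub (Ico_subset_Icc_self hu)))
      (hfc.mono hsub)
      (fun u hu => (hf u (hsub (Ico_subset_Icc_self hu))).mono_of_mem_nhdsWithin
        (Icc_mem_nhdsGE_of_mem (hsub' hu)))
      (fun u hu => fB u (hsub (Ico_subset_Icc_self hu))) (hgc.mono hsub)
      (fun u hu => (hg u (hsub (Ico_subset_Icc_self hu))).mono_of_mem_nhdsWithin
        (Icc_mem_nhdsGE_of_mem (hsub' hu)))
      (fun u hu => gB u (hsub (Ico_subset_Icc_self hu))) h ⟨hst, le_rfl⟩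
  · have hsub : Icc t s ⊆ Icc a b := Icc_subset_Icc ht.1 hs.2
    have hsub' : Ioc t s ⊆ Ioc a b := Ioc_subset_Ioc ht.1 hs.2
    exact ODE_solution_unique_of_mem_Icc_left (v := fun t x => Y (t, x)) (s := fun _ => B)
      (K := K) (a := t) (b := s) (fun u hu => hv u (hsub (Ioc_subset_Icc_self hu)))
      (hfc.mono hsub)
      (fun u hu => (hf u (hsub (Ioc_subset_Icc_self hu))).mono_of_mem_nhdsWithin
        (Icc_mem_nhdsLE_of_mem (hsub' hu)))
      (fun u hu => fB u (hsub (Ioc_subset_Icc_self hu))) (hgc.mono hsub)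
      (fun u hu => (hg u (hsub (Ioc_subset_Icc_self hu))).mono_of_mem_nhdsWithin
        (Icc_mem_nhdsLE_of_mem (hsub' hu)))
      (fun u hu => gB u (hsub (Ioc_subset_Icc_self hu))) h ⟨le_rfl, hst⟩

end Gen

variable {E : Type} [NormedAddCommGroup E] [InnerProductSpace ℝ E] [FiniteDimensional ℝ E]

/-- the Hamiltonian vector of `E × E` with differential `l` -/
noncomputable def xh (l : E × E →L[ℝ] ℝ) : E × E :=
  (grad (l.comp (ContinuousLinearMap.inr ℝ E E)), -grad (l.comp (ContinuousLinearMap.inl ℝ E E)))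

theorem inner_xh_fst (l : E × E →L[ℝ] ℝ) (v : E) : ⟪(xh l).1, v⟫ = l (0, v) := by
  simp only [xh, inner_grad]
  rfl

theorem inner_xh_snd (l : E × E →L[ℝ] ℝ) (v : E) : ⟪(xh l).2, v⟫ = - l (v, 0) := by
  simp only [xh, inner_neg_left, inner_grad]
  rfl

theorem xh_zero : xh (0 : E × E →L[ℝ] ℝ) = 0 := by
  simp [xh]

theorem xh_smooth {K : ℝ × (E × E) → ℝ} (hK : ContDiff ℝ ∞ K) :
    ContDiff ℝ ∞ fun x : ℝ × (E × E) => xh (dH K x) := by
  have hd := dH_smooth hK
  have hgr : ContDiff ℝ ∞ (grad : (E →L[ℝ] ℝ) → E) := (grad (E := E)).contDiff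
  exact (hgr.comp (hd.clm_comp contDiff_const)).prodMk
    (hgr.comp (hd.clm_comp contDiff_const)).neg

/-- the field on (time, point, action) -/
noncomputable def ext (K : ℝ × (E × E) → ℝ) (x : (ℝ × (E × E)) × ℝ) : (ℝ × (E × E)) × ℝ :=
  ((1, xh (dH K x.1)), ⟪x.1.2.2, (xh (dH K x.1)).1⟫ - K x.1)

theorem ext_smooth {K : ℝ × (E × E) → ℝ} (hK : ContDiff ℝ ∞ K) : ContDiff ℝ ∞ (ext K) := by
  have h1 : ContDiff ℝ ∞ fun x : (ℝ × (E × E)) × ℝ => xh (dH K x.1) :=
    (xh_smooth hK).comp contDiff_fst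
  exact (contDiff_const.prodMk h1).prodMk
    (((contDiff_snd.comp (contDiff_snd.comp contDiff_fst)).inner ℝ h1.fst).sub
      (hK.comp contDiff_fst))

theorem dH_zero {K : ℝ × (E × E) → ℝ} {x : ℝ × (E × E)} (hx : x ∉ tsupport K) : dH K x = 0 := by
  have h1 : fderiv ℝ K x = 0 := by
    by_contra hc
    exact hx (support_fderiv_subset ℝ (Function.mem_support.2 hc))
  simp [dH, h1]

theorem ext_bound {K : ℝ × (E × E) → ℝ} (hK : ContDiff ℝ ∞ K) (hc : HasCompactSupport K) :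
    ∃ C, 1 ≤ C ∧ ∀ x, ‖ext K x‖ ≤ C := by
  set g : ℝ × (E × E) → (ℝ × (E × E)) × ℝ := fun y => ext K (y, 0) with hg
  have hgc : Continuous g := (ext_smooth hK).continuous.comp (by fun_prop)
  obtain ⟨C, hC⟩ := hc.isCompact.exists_bound_of_continuousOn hgc.continuousOn
  refine ⟨max 1 C, le_max_left _ _, fun x => ?_⟩
  have e : ext K x = g x.1 := rfl
  by_cases hx : x.1 ∈ tsupport K
  · rw [e]
    exact (hC _ hx).trans (le_max_right _ _)
  · have h0 : K x.1 = 0 := image_eq_zero_of_notMem_tsupport hx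
    have : ext K x = ((1, 0), 0) := by
      simp [ext, dH_zero hx, xh_zero, h0]
    rw [this]
    simp

/-- the flow of a compactly supported Hamiltonian `K` on `E × E`, with action -/
structure HF (K : ℝ × (E × E) → ℝ) (C : ℝ) (ψ : ℝ × ℝ × (E × E) → E × E)
    (S : ℝ × ℝ × (E × E) → ℝ) : Prop where
  smooth : ContDiff ℝ ∞ ψ
  smoothS : ContDiff ℝ ∞ S
  same : ∀ s z, ψ (s, s, z) = z
  sameS : ∀ s z, S (s, s, z) = 0
  deriv : ∀ s t z, HasDerivAt (fun u => ψ (s, u, z)) (xh (dH K (t, ψ (s, t, z)))) t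
  dS : ∀ s t z w, fderiv ℝ (fun y => S (s, t, y)) z w =
    ⟪(ψ (s, t, z)).2, (fderiv ℝ (fun y => ψ (s, t, y)) z w).1⟫ - ⟪z.2, w.1⟫
  act : ∀ s t z, |S (s, t, z)| ≤ C * |t - s|
  move : ∀ s t z, ‖ψ (s, t, z) - z‖ ≤ C * |t - s|
  derivS : ∀ s t z, HasDerivAt (fun u => S (s, u, z))
    (⟪(ψ (s, t, z)).2, (xh (dH K (t, ψ (s, t, z)))).1⟫ - K (t, ψ (s, t, z))) t

theorem exists_hf {K : ℝ × (E × E) → ℝ} (hK : ContDiff ℝ ∞ K) (hc : HasCompactSupport K) :
    ∃ C ψ S, 1 ≤ C ∧ HF K C ψ S := by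
  obtain ⟨C, hC1, hC⟩ := ext_bound hK hc
  have hY := ext_smooth hK
  obtain ⟨Φ, hΦ⟩ := H57.exists_flow_bounded hY hC
  have htime : ∀ τ x, (Φ τ x).1.1 = x.1.1 + τ := by
    intro τ x
    have h1 : ∀ t, HasDerivAt (fun t => (Φ t x).1.1) 1 t := fun t => (hΦ.deriv t x).fst.fst
    have h2 : ∀ t, HasDerivAt (fun t => (Φ t x).1.1 - t) 0 t := fun t => by
      simpa using (h1 t).fun_sub (hasDerivAt_id' t)
    have h3 := is_const_of_deriv_eq_zero (fun t => (h2 t).differentiableAt)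
      (fun t => (h2 t).deriv) τ 0
    rw [hΦ.zero, sub_zero] at h3
    linarith
  have hmove : ∀ τ x, ‖Φ τ x - x‖ ≤ C * |τ| := by
    intro τ x
    have := Convex.norm_image_sub_le_of_norm_hasDerivWithin_le (f := fun t => Φ t x)
      (f' := fun t => ext K (Φ t x)) (s := univ) (C := C) (x := 0) (y := τ)
      (fun t _ => (hΦ.deriv t x).hasDerivWithinAt) (fun t _ => hC _) convex_univ (mem_univ _)
      (mem_univ _)
    simpa [hΦ.zero] using this
  have hsm : ContDiff ℝ ∞ fun x : ℝ × ℝ × (E × E) => Φ (x.2.1 - x.1) ((x.1, x.2.2), 0) :=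
    hΦ.smooth.comp ((contDiff_snd.fst.sub contDiff_fst).prodMk
      ((contDiff_fst.prodMk contDiff_snd.snd).prodMk contDiff_const))
  refine ⟨C, fun x => (Φ (x.2.1 - x.1) ((x.1, x.2.2), 0)).1.2,
    fun x => (Φ (x.2.1 - x.1) ((x.1, x.2.2), 0)).2, hC1, hsm.fst.snd, hsm.snd, ?_, ?_, ?_, ?_,
    ?_, ?_, ?_⟩
  · intro s z
    simp [hΦ.zero]
  · intro s z
    simp [hΦ.zero]
  · intro s t z
    have h1 := ((hΦ.deriv (t - s) ((s, z), 0)).comp_sub_const t s).fst.snd
    have h2 : (Φ (t - s) ((s, z), 0)).1 = (t, (Φ (t - s) ((s, z), 0)).1.2) := by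
      refine Prod.ext ?_ rfl
      rw [htime]
      simp
    have h3 : (ext K (Φ (t - s) ((s, z), 0))).1.2 =
        xh (dH K (t, (Φ (t - s) ((s, z), 0)).1.2)) := by
      conv_rhs => rw [← h2]
      rfl
    rw [← h3]
    exact h1
  · intro s t z w
    set x₀ : (ℝ × (E × E)) × ℝ := ((s, z), 0) with hx₀
    set w₀ : (ℝ × (E × E)) × ℝ := ((0, w), 0) with hw₀
    set D : ℝ → (ℝ × (E × E)) × ℝ := fun τ => fderiv ℝ (Φ τ) x₀ w₀ with hD
    have hin : HasFDerivAt (fun y : E × E => (((s, y), (0 : ℝ)) : (ℝ × (E × E)) × ℝ))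
        ((ContinuousLinearMap.inl ℝ (ℝ × (E × E)) ℝ).comp (ContinuousLinearMap.inr ℝ ℝ (E × E)))
        z := by
      have h1 : HasFDerivAt (fun y : ℝ × (E × E) => (y, (0 : ℝ)))
        (ContinuousLinearMap.inl ℝ (ℝ × (E × E)) ℝ) (s, z) := hasFDerivAt_prodMk_left (s, z) 0
      exact h1.comp z (hasFDerivAt_prodMk_right s z)
    have hc1 := (hΦ.hasFDerivAt (t - s) x₀).comp z hin
    have e1 : fderiv ℝ (fun y => (Φ (t - s) ((s, y), 0)).2) z w = (D (t - s)).2 := by
      have := hc1.snd.fderiv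
      exact congrArg (fun L => L w) this
    have e2 : fderiv ℝ (fun y => (Φ (t - s) ((s, y), 0)).1.2) z w = (D (t - s)).1.2 := by
      have := hc1.fst.snd.fderiv
      exact congrArg (fun L => L w) this
    have hDt : ∀ τ, (D τ).1.1 = 0 := by
      intro τ
      have h1 := (hΦ.hasFDerivAt τ x₀).fst.fst
      have h2 : (fun x => (Φ τ x).1.1) = fun x : (ℝ × (E × E)) × ℝ => x.1.1 + τ :=
        funext fun x => htime τ x
      have h3 : HasFDerivAt (fun x : (ℝ × (E × E)) × ℝ => x.1.1 + τ)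
          ((ContinuousLinearMap.fst ℝ ℝ (E × E)).comp
            (ContinuousLinearMap.fst ℝ (ℝ × (E × E)) ℝ)) x₀ :=
        (hasFDerivAt_fst.comp x₀ hasFDerivAt_fst).add_const τ
      rw [h2] at h1
      have h4 := congrArg (fun L => L w₀) (h1.unique h3)
      exact h4
    have hder : ∀ τ, HasDerivAt (fun τ => (D τ).2 - ⟪(Φ τ x₀).1.2.2, (D τ).1.2.1⟫) 0 τ := by
      intro τ
      have hv := flow_var hY hΦ x₀ w₀ τ
      set x := Φ τ x₀ with hx
      set d := D τ with hd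
      have hx1 : HasFDerivAt (fun y : (ℝ × (E × E)) × ℝ => (xh (dH K y.1)).1)
          ((ContinuousLinearMap.fst ℝ E E).comp ((ContinuousLinearMap.snd ℝ ℝ (E × E)).comp
            ((ContinuousLinearMap.fst ℝ (ℝ × (E × E)) ℝ).comp (fderiv ℝ (ext K) x)))) x :=
        (hY.differentiable (by simp) x).hasFDerivAt.fst.snd.fst
      have hp : HasFDerivAt (fun y : (ℝ × (E × E)) × ℝ => y.1.2.2)
          ((ContinuousLinearMap.snd ℝ E E).comp ((ContinuousLinearMap.snd ℝ ℝ (E × E)).comp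
            (ContinuousLinearMap.fst ℝ (ℝ × (E × E)) ℝ))) x :=
        hasFDerivAt_snd.comp x (hasFDerivAt_snd.comp x hasFDerivAt_fst)
      have hk : HasFDerivAt (fun y : (ℝ × (E × E)) × ℝ => K y.1)
          ((fderiv ℝ K x.1).comp (ContinuousLinearMap.fst ℝ (ℝ × (E × E)) ℝ)) x :=
        (hK.differentiable (by simp) x.1).hasFDerivAt.comp x hasFDerivAt_fst
      have ha := (hp.inner ℝ hx1).sub hk
      have hb := (hY.differentiable (by simp) x).hasFDerivAt.snd
      have hab := congrArg (fun L => L d) (hb.unique ha)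
      have e3 : (fderiv ℝ (ext K) x d).2 = ⟪x.1.2.2, (fderiv ℝ (ext K) x d).1.2.1⟫ +
          ⟪d.1.2.2, (xh (dH K x.1)).1⟫ - fderiv ℝ K x.1 d.1 := by
        simpa [fderivInnerCLM_apply] using hab
      have e4 : fderiv ℝ K x.1 d.1 = dH K x.1 (d.1.2.1, 0) + dH K x.1 (0, d.1.2.2) := by
        rw [← map_add]
        have : d.1 = (0, (d.1.2.1, 0) + (0, d.1.2.2)) := by
          refine Prod.ext (hDt τ) ?_
          simp
        conv_lhs => rw [this]
        rfl
      have g1 : HasDerivAt (fun τ => (Φ τ x₀).1.2.2) (xh (dH K x.1)).2 τ :=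
        (hΦ.deriv τ x₀).fst.snd.snd
      have g2 : HasDerivAt (fun τ => (D τ).1.2.1) (fderiv ℝ (ext K) x d).1.2.1 τ :=
        hv.fst.snd.fst
      have g3 : HasDerivAt (fun τ => (D τ).2) (fderiv ℝ (ext K) x d).2 τ := hv.snd
      have h5 := g3.sub (g1.inner ℝ g2)
      have e5 : (fderiv ℝ (ext K) x d).2 - (⟪x.1.2.2, (fderiv ℝ (ext K) x d).1.2.1⟫ +
          ⟪(xh (dH K x.1)).2, d.1.2.1⟫) = 0 := by
        rw [e3, e4, inner_xh_snd, real_inner_comm (xh (dH K x.1)).1, inner_xh_fst]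
        ring
      rw [← e5]
      exact h5
    have hconst := is_const_of_deriv_eq_zero (fun τ => (hder τ).differentiableAt)
      (fun τ => (hder τ).deriv) (t - s) 0
    have hD0 : D 0 = w₀ := by
      have : Φ 0 = id := funext fun x => hΦ.zero x
      simp [hD, this]
    rw [hD0, hΦ.zero] at hconst
    show fderiv ℝ (fun y => (Φ (t - s) ((s, y), 0)).2) z w =
      ⟪(Φ (t - s) ((s, z), 0)).1.2.2,
        (fderiv ℝ (fun y => (Φ (t - s) ((s, y), 0)).1.2) z w).1⟫ - ⟪z.2, w.1⟫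
    rw [e1, e2]
    have e6 : w₀.2 - ⟪x₀.1.2.2, w₀.1.2.1⟫ = - ⟪z.2, w.1⟫ := by simp [hw₀, hx₀]
    rw [e6] at hconst
    linarith
  · intro s t z
    have h1 := (norm_snd_le _).trans (hmove (t - s) ((s, z), 0))
    simpa using h1
  · intro s t z
    have h1 := ((norm_snd_le _).trans (norm_fst_le _)).trans (hmove (t - s) ((s, z), 0))
    simpa using h1
  · intro s t z
    have h1 := ((hΦ.deriv (t - s) ((s, z), 0)).comp_sub_const t s).snd
    have h2 : (Φ (t - s) ((s, z), 0)).1 = (t, (Φ (t - s) ((s, z), 0)).1.2) := by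
      refine Prod.ext ?_ rfl
      rw [htime]
      simp
    have h3 : (ext K (Φ (t - s) ((s, z), 0))).2 =
        ⟪(Φ (t - s) ((s, z), 0)).1.2.2, (xh (dH K (t, (Φ (t - s) ((s, z), 0)).1.2))).1⟫ -
          K (t, (Φ (t - s) ((s, z), 0)).1.2) := by
      conv_rhs => rw [← h2]
      rfl
    rw [← h3]
    exact h1

end Vale.Agent.P220Z.Per
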