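import Vale.Agent.P220Z.Per.FlowA

/-!
# Short-time maps are `C¹`-close to the identity; reduction to `T*Q`
-/

open Set Filter Topology
open scoped ContDiff RealInnerProductSpace

namespace Vale.Agent.P220Z.Per

open Vale.Agent.P220.R2 Vale.Agent.P220.R2.H481

set_option linter.unusedSectionVars false

variable {E : Type} [NormedAddCommGroup E] [InnerProductSpace ℝ E] [FiniteDimensional ℝ E]

theorem HF.far {K : ℝ × (E × E) → ℝ} (hK : ContDiff ℝ ∞ K) {C : ℝ}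
    {ψ : ℝ × ℝ × (E × E) → E × E} {S : ℝ × ℝ × (E × E) → ℝ} (h : HF K C ψ S) {z : E × E}
    (hz : ∀ t, (t, z) ∉ tsupport K) (s t : ℝ) : ψ (s, t, z) = z := by
  have h1 := ode_uniq (Y := fun x => xh (dH K x)) (xh_smooth hK) (a := min s t) (b := max s t)
    (s := s) (f := fun u => ψ (s, u, z)) (g := fun _ => z)
    (fun u _ => (h.deriv s u z).hasDerivWithinAt)
    (fun u _ => by
      rw [dH_zero (hz u), xh_zero]
      exact hasDerivWithinAt_const _ _ _)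
    ⟨min_le_left _ _, le_max_left _ _⟩ (h.same s z)
  exact h1 t ⟨min_le_right _ _, le_max_right _ _⟩

theorem close_gen {F : Type} [NormedAddCommGroup F] [NormedSpace ℝ F] [FiniteDimensional ℝ F]
    {ψ : ℝ × ℝ × F → F} (hsm : ContDiff ℝ ∞ ψ) (same : ∀ s z, ψ (s, s, z) = z) {R : ℝ}
    (far : ∀ s t z, R < ‖z‖ → ψ (s, t, z) = z) :
    ∃ δ > 0, ∀ s ∈ Icc (0 : ℝ) 1, ∀ t ∈ Icc (0 : ℝ) 1, ∀ z w, |t - s| ≤ δ →
      ‖fderiv ℝ (fun y => ψ (s, t, y)) z w - w‖ ≤ ‖w‖ / 4 := by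
  set J : F →L[ℝ] ℝ × ℝ × F :=
    (ContinuousLinearMap.inr ℝ ℝ (ℝ × F)).comp (ContinuousLinearMap.inr ℝ ℝ F) with hJ
  set g : ℝ × ℝ × F → (F →L[ℝ] F) := fun x => (fderiv ℝ ψ x).comp J with hg
  have hgc : Continuous g :=
    ((hsm.fderiv_right (m := ∞) (by simp)).clm_comp contDiff_const).continuous
  have hge : ∀ s t z, fderiv ℝ (fun y => ψ (s, t, y)) z = g (s, t, z) := by
    intro s t z
    have h1 : HasFDerivAt (fun y : F => (s, t, y)) J z := by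
      have h2 : HasFDerivAt (fun y : ℝ × F => (s, y))
        (ContinuousLinearMap.inr ℝ ℝ (ℝ × F)) (t, z) := hasFDerivAt_prodMk_right s (t, z)
      exact h2.comp z (hasFDerivAt_prodMk_right t z)
    exact ((hsm.differentiable (by simp) (s, t, z)).hasFDerivAt.comp z h1).fderiv
  have hsame : ∀ s z, g (s, s, z) = ContinuousLinearMap.id ℝ F := by
    intro s z
    rw [← hge]
    have : (fun y => ψ (s, s, y)) = id := funext fun y => same s y
    rw [this, fderiv_id]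
  set T : Set (ℝ × ℝ × F) := Icc 0 1 ×ˢ Icc 0 1 ×ˢ Metric.closedBall 0 (R + 1) with hT
  have hTc : IsCompact T := isCompact_Icc.prod (isCompact_Icc.prod (isCompact_closedBall _ _))
  have hn : Continuous fun x => ‖g x - ContinuousLinearMap.id ℝ F‖ :=
    (hgc.sub continuous_const).norm
  have hu := hTc.uniformContinuousOn_of_continuous hn.continuousOn
  obtain ⟨δ, hδ, hδ1⟩ := Metric.uniformContinuousOn_iff.1 hu (1 / 4) (by norm_num)
  refine ⟨δ / 2, by positivity, fun s hs t ht z w hst => ?_⟩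
  have key : ‖fderiv ℝ (fun y => ψ (s, t, y)) z - ContinuousLinearMap.id ℝ F‖ ≤ 1 / 4 := by
    by_cases hz : ‖z‖ ≤ R + 1
    · have h1 := hδ1 (s, t, z) ⟨hs, ht, mem_closedBall_zero_iff.2 hz⟩ (s, s, z)
        ⟨hs, hs, mem_closedBall_zero_iff.2 hz⟩ (by
          simp only [Prod.dist_eq, dist_self, Real.dist_eq]
          refine max_lt hδ (max_lt (by linarith) hδ))
      rw [Real.dist_eq, hsame, sub_self, norm_zero, sub_zero, abs_norm] at h1
      rw [hge]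
      exact h1.le
    · have h1 : (fun y => ψ (s, t, y)) =ᶠ[𝓝 z] id := by
        have h2 : ∀ᶠ y in 𝓝 z, R < ‖y‖ :=
          (continuous_norm.tendsto z).eventually (lt_mem_nhds (by linarith [not_le.1 hz]))
        filter_upwards [h2] with y hy
        exact far s t y hy
      rw [h1.fderiv_eq, fderiv_id, sub_self, norm_zero]
      norm_num
  have h3 := (fderiv ℝ (fun y => ψ (s, t, y)) z - ContinuousLinearMap.id ℝ F).le_opNorm w
  have h4 := mul_le_mul_of_nonneg_right key (norm_nonneg w)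
  simp only [sub_apply, ContinuousLinearMap.id_apply] at h3
  linarith

theorem HF.close {K : ℝ × (E × E) → ℝ} (hK : ContDiff ℝ ∞ K) (hc : HasCompactSupport K) {C : ℝ}
    {ψ : ℝ × ℝ × (E × E) → E × E} {S : ℝ × ℝ × (E × E) → ℝ} (h : HF K C ψ S) :
    ∃ δ > 0, ∀ s ∈ Icc (0 : ℝ) 1, ∀ t ∈ Icc (0 : ℝ) 1, ∀ z w, |t - s| ≤ δ →
      ‖fderiv ℝ (fun y => ψ (s, t, y)) z w - w‖ ≤ ‖w‖ / 4 := by
  obtain ⟨R, hR⟩ := hc.isCompact.isBounded.exists_norm_le
  refine close_gen h.smooth h.same (R := R) fun s t y hy => h.far hK (fun u hu => ?_) s t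
  have := (norm_snd_le (u, y)).trans (hR _ hu)
  exact absurd this (not_le.2 hy)

variable {Q U : Set E} {r : E → E} {Pr : E → E →L[ℝ] E}

theorem dr_tan (hr : H57.IsRet Q U r) {q a : E} (hq : q ∈ Q) (ha : a ∈ tan Q q) :
    fderiv ℝ r q a = a := by
  rw [tan_eq_Tan] at ha
  exact (hr.mem_Tan hq).1 ha

theorem dPr_curve (hP : IsProj Q Pr) {γ : ℝ → E} {a : E} {t : ℝ} (h : HasDerivAt γ a t) (v : E) :
    HasDerivAt (fun u => Pr (γ u) v) (fderiv ℝ Pr (γ t) a v) t := by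
  have hd : HasDerivAt (fun u => Pr (γ u)) (fderiv ℝ Pr (γ t) a) t :=
    (hP.smooth.differentiable (by simp) (γ t)).hasFDerivAt.comp_hasDerivAt t h
  simpa using hd.clm_apply (hasDerivAt_const t v)

theorem dPr_symm (hP : IsProj Q Pr) {q a : E} (ha : a ∈ tan Q q) (v w : E) :
    ⟪fderiv ℝ Pr q a v, w⟫ = ⟪v, fderiv ℝ Pr q a w⟫ := by
  obtain ⟨γ, h1, h2, h3, h4⟩ := ha
  have e1 := (dPr_curve hP h4 v).inner ℝ (hasDerivAt_const (0 : ℝ) w)
  have e2 := (hasDerivAt_const (0 : ℝ) v).inner ℝ (dPr_curve hP h4 w)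
  have e3 : (fun u => ⟪Pr (γ u) v, w⟫) = fun u => ⟪v, Pr (γ u) w⟫ :=
    funext fun u => hP.symm _ (h2 u) v w
  rw [e3] at e1
  have := e1.unique e2
  simpa [h3] using this

theorem dPr_sq (hP : IsProj Q Pr) {q a : E} (ha : a ∈ tan Q q) (v : E) :
    fderiv ℝ Pr q a (Pr q v) + Pr q (fderiv ℝ Pr q a v) = fderiv ℝ Pr q a v := by
  obtain ⟨γ, h1, h2, h3, h4⟩ := ha
  have hd : HasDerivAt (fun u => Pr (γ u)) (fderiv ℝ Pr (γ 0) a) 0 :=
    (hP.smooth.differentiable (by simp) (γ 0)).hasFDerivAt.comp_hasDerivAt 0 h4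
  have e1 := hd.clm_apply (dPr_curve hP h4 v)
  have e3 : (fun u => Pr (γ u) (Pr (γ u) v)) = fun u => Pr (γ u) v :=
    funext fun u => hP.sq (h2 u) v
  rw [e3] at e1
  have := e1.unique (dPr_curve hP h4 v)
  simpa [h3] using this

/-- symmetry of the second fundamental form -/
theorem dPr_comm (hr : H57.IsRet Q U r) (hP : IsProj Q Pr) {q a b : E} (hq : q ∈ Q)
    (ha : a ∈ tan Q q) (hb : b ∈ tan Q q) : fderiv ℝ Pr q a b = fderiv ℝ Pr q b a := by
  have key : ∀ a b : E, a ∈ tan Q q → b ∈ tan Q q → fderiv ℝ Pr q a b =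
      fderiv ℝ (fderiv ℝ r) q a b - Pr q (fderiv ℝ (fderiv ℝ r) q a b) := by
    intro a b ha hb
    obtain ⟨γ, h1, h2, h3, h4⟩ := ha
    have g1 : HasDerivAt (fun u => fderiv ℝ r (γ u) b) (fderiv ℝ (fderiv ℝ r) (γ 0) a b) 0 :=
      hasDerivAt_fderiv_line' hr.smooth h4 b
    have hd : HasDerivAt (fun u => Pr (γ u)) (fderiv ℝ Pr (γ 0) a) 0 :=
      (hP.smooth.differentiable (by simp) (γ 0)).hasFDerivAt.comp_hasDerivAt 0 h4
    have e1 := hd.clm_apply g1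
    have e3 : (fun u => Pr (γ u) (fderiv ℝ r (γ u) b)) = fun u => fderiv ℝ r (γ u) b := by
      funext u
      refine hP.id _ (h2 u) _ ?_
      rw [tan_eq_Tan]
      exact (hr.mem_Tan (h2 u)).2 (hr.fderiv_mem (h2 u) b)
    rw [e3] at e1
    have e4 := e1.unique g1
    rw [h3, dr_tan hr hq hb] at e4
    exact eq_sub_of_add_eq e4
  rw [key a b ha hb, key b a hb ha, second_symm' hr.smooth]

/-- the extension of `H` to `E × E` -/
def hext (H : ℝ × (E × E) → ℝ) (r : E → E) (Pr : E → E →L[ℝ] E) (x : ℝ × (E × E)) : ℝ :=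
  H (x.1, (r x.2.1, Pr (r x.2.1) x.2.2))

theorem hext_smooth {H : ℝ × (E × E) → ℝ} (hH : ContDiff ℝ ∞ H) (hr : H57.IsRet Q U r)
    (hP : IsProj Q Pr) : ContDiff ℝ ∞ (hext H r Pr) := by
  have h1 : ContDiff ℝ ∞ fun x : ℝ × (E × E) => r x.2.1 := hr.smooth.comp contDiff_snd.fst
  exact hH.comp (contDiff_fst.prodMk (h1.prodMk ((hP.smooth.comp h1).clm_apply contDiff_snd.snd)))

theorem dH_hext {H : ℝ × (E × E) → ℝ} (hH : ContDiff ℝ ∞ H) (hr : H57.IsRet Q U r)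
    (hP : IsProj Q Pr) (s : ℝ) {z : E × E} (hz : z.1 ∈ Q) (w : E × E) :
    dH (hext H r Pr) (s, z) w = dH H (s, red Pr z)
      (fderiv ℝ r z.1 w.1, fderiv ℝ Pr z.1 (fderiv ℝ r z.1 w.1) z.2 + Pr z.1 w.2) := by
  have hl : HasDerivAt (fun u : ℝ => z + u • w) w 0 := by
    simpa using ((hasDerivAt_id (0 : ℝ)).smul_const w).const_add z
  have h0 : z + (0 : ℝ) • w = z := by simp
  have hrz : r z.1 = z.1 := hr.fix _ hz
  have a1 : HasDerivAt (fun u : ℝ => hext H r Pr (s, z + u • w)) (dH (hext H r Pr) (s, z) w) 0 := by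
    have h1 : HasFDerivAt (fun y => hext H r Pr (s, y)) (dH (hext H r Pr) (s, z))
        (z + (0 : ℝ) • w) := by
      rw [h0, ← dH_eq (hext_smooth hH hr hP)]
      exact (((hext_smooth hH hr hP).comp (contDiff_const.prodMk contDiff_id)).differentiable
        (by simp) z).hasFDerivAt
    have h2 := h1.comp_hasDerivAt (0 : ℝ) hl
    exact h2
  have b1 : HasDerivAt (fun u : ℝ => r (z + u • w).1) (fderiv ℝ r z.1 w.1) 0 := by
    have h1 : HasFDerivAt r (fderiv ℝ r z.1) (z + (0 : ℝ) • w).1 := by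
      rw [h0]
      exact hr.hasFDerivAt _
    exact h1.comp_hasDerivAt (0 : ℝ) (hasDerivAt_fst hl)
  have b2 : HasDerivAt (fun u : ℝ => Pr (r (z + u • w).1))
      (fderiv ℝ Pr z.1 (fderiv ℝ r z.1 w.1)) 0 := by
    have h1 : HasFDerivAt Pr (fderiv ℝ Pr z.1) (r (z + (0 : ℝ) • w).1) := by
      rw [h0, hrz]
      exact (hP.smooth.differentiable (by simp) _).hasFDerivAt
    exact h1.comp_hasDerivAt (0 : ℝ) b1
  have b3 := b2.clm_apply (hasDerivAt_snd hl)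
  simp only [h0, hrz] at b3
  have b4 : HasFDerivAt (fun y => H (s, y)) (dH H (s, red Pr z))
      (r (z + (0 : ℝ) • w).1, Pr (r (z + (0 : ℝ) • w).1) (z + (0 : ℝ) • w).2) := by
    rw [h0, hrz, ← dH_eq hH]
    exact ((hH.comp (contDiff_const.prodMk contDiff_id)).differentiable (by simp) _).hasFDerivAt
  have b5 := b4.comp_hasDerivAt (0 : ℝ) (b1.prodMk b3)
  exact a1.unique b5

theorem red_mem (hP : IsProj Q Pr) {z : E × E} (hz : z.1 ∈ Q) : red Pr z ∈ cotangent Q :=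
  ⟨hz, hP.mem _ hz _⟩

theorem xh_fst_eq {H : ℝ × (E × E) → ℝ} (hH : ContDiff ℝ ∞ H) (hr : H57.IsRet Q U r)
    (hP : IsProj Q Pr) (s : ℝ) {z : E × E} (hz : z.1 ∈ Q) :
    (xh (dH (hext H r Pr) (s, z))).1 = vfx Pr (red Pr z) (dH H (s, red Pr z)) := by
  refine ext_inner_right ℝ fun v => ?_
  rw [inner_xh_fst, dH_hext hH hr hP s hz, vfx]
  have e : (red Pr z).1 = z.1 := rfl
  rw [e, hP.symm _ hz, inner_grad]
  simp

/-- the reduced Hamiltonian vector -/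
theorem red_vec {H : ℝ × (E × E) → ℝ} (hH : ContDiff ℝ ∞ H) (hr : H57.IsRet Q U r)
    (hP : IsProj Q Pr) (s : ℝ) {z : E × E} (hz : z.1 ∈ Q) :
    ((xh (dH (hext H r Pr) (s, z))).1,
      fderiv ℝ Pr z.1 (xh (dH (hext H r Pr) (s, z))).1 z.2 +
        Pr z.1 (xh (dH (hext H r Pr) (s, z))).2) = vf Pr (red Pr z) (dH H (s, red Pr z)) := by
  set l := dH H (s, red Pr z) with hl
  set w := xh (dH (hext H r Pr) (s, z)) with hw
  have hw1 : w.1 = vfx Pr (red Pr z) l := xh_fst_eq hH hr hP s hz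
  have hat : w.1 ∈ tan Q z.1 := by
    rw [hw1]
    exact hP.mem _ hz _
  refine Prod.ext hw1 ?_
  show fderiv ℝ Pr z.1 w.1 z.2 + Pr z.1 w.2 = fderiv ℝ Pr z.1 (vfx Pr (red Pr z) l) (Pr z.1 z.2) -
    Pr z.1 (grad (l.comp (ContinuousLinearMap.inl ℝ E E) +
      (l.comp (ContinuousLinearMap.inr ℝ E E)).comp ((fderiv ℝ Pr z.1).flip (Pr z.1 z.2))))
  rw [← hw1]
  set ν := z.2 - Pr z.1 z.2 with hν
  have hν0 : Pr z.1 ν = 0 := by rw [hν, map_sub, hP.sq hz, sub_self]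
  have hp : z.2 = Pr z.1 z.2 + ν := by rw [hν]; abel
  have htan : ∀ c ∈ tan Q z.1, Pr z.1 (fderiv ℝ Pr z.1 c ν) = fderiv ℝ Pr z.1 c ν := by
    intro c hc
    have := dPr_sq hP hc ν
    rwa [hν0, map_zero, zero_add] at this
  refine ext_inner_right ℝ fun v => ?_
  set b := Pr z.1 v with hb
  have hbt : b ∈ tan Q z.1 := hP.mem _ hz v
  have e1 : ⟪Pr z.1 w.2, v⟫ = - l (b, fderiv ℝ Pr z.1 b z.2) := by
    rw [hP.symm _ hz, hw, inner_xh_snd, dH_hext hH hr hP s hz]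
    simp only [map_zero, add_zero]
    rw [dr_tan hr hz hbt]
  have e2 : ⟪Pr z.1 (grad (l.comp (ContinuousLinearMap.inl ℝ E E) +
      (l.comp (ContinuousLinearMap.inr ℝ E E)).comp ((fderiv ℝ Pr z.1).flip (Pr z.1 z.2)))), v⟫ =
      l (b, 0) + l (0, fderiv ℝ Pr z.1 b (Pr z.1 z.2)) := by
    rw [hP.symm _ hz, inner_grad]
    rfl
  have e3 : l (0, fderiv ℝ Pr z.1 b ν) = ⟪fderiv ℝ Pr z.1 w.1 ν, v⟫ := by
    have h1 : ⟪w.1, fderiv ℝ Pr z.1 b ν⟫ = l (0, fderiv ℝ Pr z.1 b ν) := by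
      rw [hw, inner_xh_fst, dH_hext hH hr hP s hz]
      simp only [map_zero, zero_apply, zero_add]
      rw [htan b hbt]
    rw [← h1, ← dPr_symm hP hbt, dPr_comm hr hP hz hbt hat, real_inner_comm, ← dPr_symm hP hat,
      hb, ← hP.symm _ hz, htan _ hat]
  have e4 : l (b, fderiv ℝ Pr z.1 b z.2) = l (b, 0) + l (0, fderiv ℝ Pr z.1 b (Pr z.1 z.2)) +
      l (0, fderiv ℝ Pr z.1 b ν) := by
    rw [← map_add, ← map_add]
    congr 1
    refine Prod.ext (by simp) ?_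
    simp only [Prod.snd_add, zero_add]
    rw [← map_add, ← hp]
  have e5 : fderiv ℝ Pr z.1 w.1 z.2 =
      fderiv ℝ Pr z.1 w.1 (Pr z.1 z.2) + fderiv ℝ Pr z.1 w.1 ν := by
    rw [← map_add, ← hp]
  rw [inner_add_left, inner_sub_left, e1, e2, e4, e3, e5, inner_add_left]
  ring

end Vale.Agent.P220Z.Per
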