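import Vale.Agent.P220Z.Per.FlowB

/-!
# The ambient flow induces the flow on `T*Q`
-/

open Set Filter Topology
open scoped ContDiff RealInnerProductSpace

namespace Vale.Agent.P220Z.Per

open Vale.Agent.P220.R2 Vale.Agent.P220.R2.H481

set_option linter.unusedSectionVars false

variable {E : Type} [NormedAddCommGroup E] [InnerProductSpace ℝ E] [FiniteDimensional ℝ E]
  {Q U : Set E} {r : E → E} {Pr : E → E →L[ℝ] E}

theorem norm_Pr_le (hP : IsProj Q Pr) {q : E} (hq : q ∈ Q) (p : E) : ‖Pr q p‖ ≤ ‖p‖ := by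
  have h1 : ‖Pr q p‖ ^ 2 = ⟪p, Pr q p⟫ := by
    rw [← real_inner_self_eq_norm_sq, hP.symm q hq, hP.sq hq]
  have h2 := real_inner_le_norm p (Pr q p)
  by_contra hc
  have h3 := not_le.1 hc
  nlinarith [norm_nonneg p]

theorem nor_iff (hP : IsProj Q Pr) {q : E} (hq : q ∈ Q) {ν : E} : Nor Q q ν ↔ Pr q ν = 0 := by
  constructor
  · intro h
    refine ext_inner_right ℝ fun v => ?_
    rw [hP.symm q hq, inner_zero_left]
    refine h _ ?_
    rw [← tan_eq_Tan]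
    exact hP.mem q hq v
  · intro h v hv
    rw [← tan_eq_Tan] at hv
    rw [← hP.id q hq v hv, ← hP.symm q hq, h, inner_zero_left]

theorem red_red (hP : IsProj Q Pr) {z : E × E} (hz : z.1 ∈ Q) : red Pr (red Pr z) = red Pr z :=
  Prod.ext rfl (hP.sq hz _)

theorem norm_red_le (hP : IsProj Q Pr) {z : E × E} (hz : z.1 ∈ Q) : ‖red Pr z‖ ≤ ‖z‖ := by
  rw [Prod.norm_def, Prod.norm_def]
  exact max_le_max le_rfl (norm_Pr_le hP hz _)

theorem red_eq (hP : IsProj Q Pr) {q p p' : E} (hq : q ∈ Q) (hp : p ∈ H57.Tan Q q)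
    (h : Nor Q q (p' - p)) : red Pr (q, p') = (q, p) := by
  refine Prod.ext rfl ?_
  have h1 := (nor_iff hP hq).1 h
  rw [map_sub, sub_eq_zero] at h1
  rw [← tan_eq_Tan] at hp
  exact h1.trans (hP.id q hq p hp)

theorem red_deriv (hP : IsProj Q Pr) {c : ℝ → E × E} {w : E × E} {u : ℝ} (h : HasDerivAt c w u) :
    HasDerivAt (fun v => red Pr (c v))
      (w.1, fderiv ℝ Pr (c u).1 w.1 (c u).2 + Pr (c u).1 w.2) u := by
  have h1 := hasDerivAt_fst h
  have hd : HasDerivAt (fun v => Pr (c v).1) (fderiv ℝ Pr (c u).1 w.1) u :=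
    (hP.smooth.differentiable (by simp) (c u).1).hasFDerivAt.comp_hasDerivAt u h1
  exact h1.prodMk (hd.clm_apply (hasDerivAt_snd h))

/-- trajectories of the given flow solve the equation of `vf` -/
theorem phi_ode (hr : H57.IsRet Q U r) (hP : IsProj Q Pr) {H : ℝ × (E × E) → ℝ}
    (hH : ContDiff ℝ ∞ H) {φ : ℝ → E × E → E × E} (hφ : H57.IsHamFlow Q H φ) {z : E × E}
    (hz : z ∈ H57.Cot Q) {s : ℝ} (hs : s ∈ Icc (0 : ℝ) 1) :
    HasDerivWithinAt (fun u => φ u z) (vf Pr (φ s z) (dH H (s, φ s z))) (Icc 0 1) s := by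
  obtain ⟨h1, w, h2, h3, h4⟩ := hφ.2 z hz s hs
  rw [← cotangent_eq_Cot] at h1 h2 h4
  rw [← tan_eq_Tan] at h2 h4
  have hadd : ∀ a ∈ tan Q (φ s z).1, ∀ b ∈ tan Q (φ s z).1, a - b ∈ tan Q (φ s z).1 := by
    intro a ha b hb
    have := hP.mem _ h1.1 (a - b)
    rwa [map_sub, hP.id _ h1.1 a ha, hP.id _ h1.1 b hb] at this
  have h5 := tan_sub_cotangent hP h1 hadd h2 (hP.vf_tan h1 (dH H (s, φ s z)))
  have h6 := hP.nondeg h1 h5 fun u hu => by
    have e1 : om w u = - dH H (s, φ s z) u := by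
      rw [← dH_eq hH]
      exact h4 u hu
    have e2 := hP.vf_om h1 (dH H (s, φ s z)) hu
    have e3 : om (w - vf Pr (φ s z) (dH H (s, φ s z))) u =
        om w u - om (vf Pr (φ s z) (dH H (s, φ s z))) u := by
      simp only [om, Prod.fst_sub, Prod.snd_sub, inner_sub_left, inner_sub_right]
      ring
    rw [e3, e1, e2, sub_self]
  rw [← sub_eq_zero.1 h6]
  exact h3

/-- the images of the zero section are bounded -/
theorem phi_bound (hr : H57.IsRet Q U r) (hP : IsProj Q Pr) {H : ℝ × (E × E) → ℝ}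
    (hH : H57.IsHam Q H) {φ : ℝ → E × E → E × E} (hφ : H57.IsHamFlow Q H φ) :
    ∃ R ≥ 0, ∀ z ∈ H57.Cot Q, z.2 = 0 → ∀ s ∈ Icc (0 : ℝ) 1, ‖(φ s z).2‖ ≤ R := by
  obtain ⟨R, hR⟩ := hH.supp
  refine ⟨|R|, abs_nonneg R, fun z hz hz0 s hs => ?_⟩
  by_contra hc
  have hlt : |R| < ‖(φ s z).2‖ := not_le.1 hc
  set y := φ s z with hy
  have hyc : y ∈ cotangent Q := by
    rw [cotangent_eq_Cot]
    exact (hφ.2 z hz s hs).1
  have hv : ∀ u, vf Pr y (dH H (u, y)) = 0 := by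
    intro u
    refine hP.vf_eq_zero hyc fun w hw => ?_
    have h1 : fderiv ℝ (fun x => H (u, x)) y w = fderiv ℝ (fun _ : E × E => (0 : ℝ)) y w := by
      refine fderiv_congr_tan (K := cotangent Q) ?_ (differentiableAt_const _) ?_ hw
      · exact (hH.smooth.comp (contDiff_const.prodMk contDiff_id)).differentiable (by simp) y
      · have h2 : ∀ᶠ x in 𝓝 y, |R| < ‖x.2‖ :=
          ((continuous_norm.comp continuous_snd).tendsto y).eventually (lt_mem_nhds hlt)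
        filter_upwards [h2] with x hx hxQ
        rw [cotangent_eq_Cot] at hxQ
        exact hR u x hxQ ((le_abs_self R).trans hx.le)
    rw [← dH_eq hH.smooth, h1]
    simp
  have h3 := ode_uniq (Y := fun x => vf Pr x.2 (dH H x)) (vf_smooth hP.smooth hH.smooth)
    (a := 0) (b := 1) (s := s) (f := fun u => φ u z) (g := fun _ => y)
    (fun u hu => phi_ode hr hP hH.smooth hφ hz hu)
    (fun u _ => by
      rw [hv u]
      exact hasDerivWithinAt_const _ _ _) hs rfl 0 ⟨le_rfl, zero_le_one⟩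
  have h4 : φ 0 z = y := h3
  rw [hφ.1 z hz] at h4
  rw [← h4, hz0, norm_zero] at hlt
  exact absurd hlt (not_lt.2 (abs_nonneg R))

/-- the data of the ambient flow -/
structure Amb (Q : Set E) (r : E → E) (Pr : E → E →L[ℝ] E) (H K : ℝ × (E × E) → ℝ) (M C : ℝ)
    (ψ : ℝ × ℝ × (E × E) → E × E) (S : ℝ × ℝ × (E × E) → ℝ) : Prop where
  hK : ContDiff ℝ ∞ K
  hf : HF K C ψ S
  one : 1 ≤ C
  big : 2 ≤ M
  eq : ∀ x, ‖x‖ < M → dH K x = dH (hext H r Pr) x

variable {H K : ℝ × (E × E) → ℝ} {M C : ℝ} {ψ : ℝ × ℝ × (E × E) → E × E}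
  {S : ℝ × ℝ × (E × E) → ℝ}

theorem exists_amb (hH : ContDiff ℝ ∞ H) (hr : H57.IsRet Q U r) (hP : IsProj Q Pr) {M : ℝ}
    (hM : 2 ≤ M) : ∃ K C ψ S, HasCompactSupport K ∧ Amb Q r Pr H K M C ψ S := by
  obtain ⟨χ, h1, h2, h3⟩ := H57.exists_cutoff (F := ℝ × (E × E)) M
  have hK : ContDiff ℝ ∞ fun x => χ x * hext H r Pr x := h1.mul (hext_smooth hH hr hP)
  have hc : HasCompactSupport fun x => χ x * hext H r Pr x := h2.mul_right
  obtain ⟨C, ψ, S, hC, hf⟩ := exists_hf hK hc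
  refine ⟨_, C, ψ, S, hc, hK, hf, hC, hM, fun x hx => ?_⟩
  have h4 : (fun x => χ x * hext H r Pr x) =ᶠ[𝓝 x] hext H r Pr := by
    have h5 : ∀ᶠ y in 𝓝 x, ‖y‖ < M := (continuous_norm.tendsto x).eventually (gt_mem_nhds hx)
    filter_upwards [h5] with y hy
    rw [h3 y hy.le, one_mul]
  simp only [dH, h4.fderiv_eq]

theorem HF.inverse (hK : ContDiff ℝ ∞ K) (h : HF K C ψ S) (s t : ℝ) (z : E × E) :
    ψ (t, s, ψ (s, t, z)) = z := by
  have h1 := ode_uniq (Y := fun x => xh (dH K x)) (xh_smooth hK) (a := min s t) (b := max s t)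
    (s := t) (f := fun u => ψ (t, u, ψ (s, t, z))) (g := fun u => ψ (s, u, z))
    (fun u _ => (h.deriv t u _).hasDerivWithinAt) (fun u _ => (h.deriv s u z).hasDerivWithinAt)
    ⟨min_le_right _ _, le_max_right _ _⟩ (h.same t _) s ⟨min_le_left _ _, le_max_left _ _⟩
  have h2 : ψ (t, s, ψ (s, t, z)) = ψ (s, s, z) := h1
  rw [h2, h.same]

theorem Amb.der (h : Amb Q r Pr H K M C ψ S) {s t : ℝ} (hs : s ∈ Icc (0 : ℝ) 1)
    (ht : t ∈ Icc (0 : ℝ) 1) (hst : C * |t - s| ≤ 1) {z : E × E} (hz : ‖z‖ ≤ M - 2) {u : ℝ}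
    (hu : u ∈ uIcc s t) :
    HasDerivAt (fun u => ψ (s, u, z)) (xh (dH (hext H r Pr) (u, ψ (s, u, z)))) u := by
  have h1 : |u - s| ≤ |t - s| := abs_sub_left_of_mem_uIcc hu
  have h2 := h.hf.move s u z
  have h3 : C * |u - s| ≤ 1 := (mul_le_mul_of_nonneg_left h1 (by linarith [h.one])).trans hst
  have h4 : ‖ψ (s, u, z)‖ < M := by
    have := norm_le_norm_add_norm_sub' (ψ (s, u, z)) z
    linarith
  have h5 : u ∈ Icc (0 : ℝ) 1 := uIcc_subset_Icc hs ht hu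
  have h6 : ‖(u, ψ (s, u, z))‖ < M := by
    rw [Prod.norm_def]
    refine max_lt ?_ h4
    show ‖u‖ < M
    rw [Real.norm_eq_abs, abs_of_nonneg h5.1]
    linarith [h5.2, h.big]
  rw [← h.eq _ h6]
  exact h.hf.deriv s u z

theorem Amb.stay (h : Amb Q r Pr H K M C ψ S) (hH : ContDiff ℝ ∞ H) (hr : H57.IsRet Q U r)
    (hP : IsProj Q Pr) {s t : ℝ} (hs : s ∈ Icc (0 : ℝ) 1)
    (ht : t ∈ Icc (0 : ℝ) 1) (hst : C * |t - s| ≤ 1) {z : E × E} (hz : ‖z‖ ≤ M - 2)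
    (hq : z.1 ∈ Q) : (ψ (s, t, z)).1 ∈ Q := by
  set Y : ℝ × (E × E) → ℝ × (E × E) := fun x => (t - s) • (1, xh (dH (hext H r Pr) x)) with hY
  have hYs : ContDiff ℝ ∞ Y :=
    (contDiff_const.prodMk (xh_smooth (hext_smooth hH hr hP))).const_smul (t - s)
  have hcl : IsClosed {x : ℝ × (E × E) | x.2.1 ∈ Q} :=
    hr.isClosed.preimage (continuous_fst.comp continuous_snd)
  have key := invariant_Icc (K := {x : ℝ × (E × E) | x.2.1 ∈ Q}) hcl hYs
    (fun x hx => by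
      refine tan_smul' (t - s) ?_
      have h1 : (xh (dH (hext H r Pr) (x.1, x.2))).1 ∈ tan Q x.2.1 := by
        rw [xh_fst_eq hH hr hP x.1 hx]
        exact hP.mem _ hx _
      obtain ⟨γ, g1, g2, g3, g4⟩ := h1
      refine ⟨fun τ => (x.1 + τ, (γ τ, x.2.2 + τ • (xh (dH (hext H r Pr) x)).2)),
        (contDiff_const.add contDiff_id).prodMk (g1.prodMk
          (contDiff_const.add (contDiff_id.smul contDiff_const))), fun τ => g2 τ, ?_, ?_⟩
      · simp [g3]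
      · refine ((hasDerivAt_id (0 : ℝ)).const_add x.1).prodMk (g4.prodMk ?_)
        have h2 := ((hasDerivAt_id (0 : ℝ)).smul_const (xh (dH (hext H r Pr) x)).2).const_add
          x.2.2
        rw [one_smul] at h2
        exact h2)
    (γ := fun τ => (s + τ * (t - s), ψ (s, s + τ * (t - s), z))) (T := 1)
    (fun τ hτ => by
      have hm : s + τ * (t - s) ∈ uIcc s t := by
        rcases le_total s t with h1 | h1
        · rw [uIcc_of_le h1]
          constructor <;> nlinarith [hτ.1, hτ.2]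
        · rw [uIcc_of_ge h1]
          constructor <;> nlinarith [hτ.1, hτ.2]
      have h1 : HasDerivAt (fun τ : ℝ => s + τ * (t - s)) (t - s) τ := by
        simpa using ((hasDerivAt_id τ).mul_const (t - s)).const_add s
      have h2 := (h.der hs ht hst hz hm).scomp τ h1
      have h3 := h1.prodMk h2
      have e : Y (s + τ * (t - s), ψ (s, s + τ * (t - s), z)) = (t - s, (t - s) •
          xh (dH (hext H r Pr) (s + τ * (t - s), ψ (s, s + τ * (t - s), z)))) := by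
        simp [hY]
      rw [e]
      exact h3.hasDerivWithinAt)
    (by simpa [h.hf.same] using hq) 1 ⟨zero_le_one, le_rfl⟩
  simpa using key

theorem Amb.red_ode (h : Amb Q r Pr H K M C ψ S) (hH : ContDiff ℝ ∞ H) (hr : H57.IsRet Q U r)
    (hP : IsProj Q Pr) {s t : ℝ} (hs : s ∈ Icc (0 : ℝ) 1)
    (ht : t ∈ Icc (0 : ℝ) 1) (hst : C * |t - s| ≤ 1) {z : E × E} (hz : ‖z‖ ≤ M - 2)
    (hq : z.1 ∈ Q) {u : ℝ} (hu : u ∈ uIcc s t) :
    HasDerivAt (fun u => red Pr (ψ (s, u, z)))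
      (vf Pr (red Pr (ψ (s, u, z))) (dH H (u, red Pr (ψ (s, u, z))))) u := by
  have h1 : |u - s| ≤ |t - s| := abs_sub_left_of_mem_uIcc hu
  have h3 : C * |u - s| ≤ 1 := (mul_le_mul_of_nonneg_left h1 (by linarith [h.one])).trans hst
  have h4 := h.stay hH hr hP hs (uIcc_subset_Icc hs ht hu) h3 hz hq
  rw [← red_vec hH hr hP u h4]
  exact red_deriv hP (h.der hs ht hst hz hu)

theorem Amb.follow (h : Amb Q r Pr H K M C ψ S) (hH : ContDiff ℝ ∞ H) (hr : H57.IsRet Q U r)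
    (hP : IsProj Q Pr) {s t : ℝ} (hs : s ∈ Icc (0 : ℝ) 1)
    (ht : t ∈ Icc (0 : ℝ) 1) (hst : C * |t - s| ≤ 1) {z : E × E} (hz : ‖z‖ ≤ M - 2)
    (hq : z.1 ∈ Q) {g : ℝ → E × E}
    (hg : ∀ u ∈ uIcc s t, HasDerivWithinAt g (vf Pr (g u) (dH H (u, g u))) (uIcc s t) u)
    (h0 : red Pr z = g s) : red Pr (ψ (s, t, z)) = g t :=
  ode_uniq (Y := fun x => vf Pr x.2 (dH H x)) (vf_smooth hP.smooth hH)
    (a := min s t) (b := max s t) (s := s) (f := fun u => red Pr (ψ (s, u, z))) (g := g)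
    (fun _ hu => (h.red_ode hH hr hP hs ht hst hz hq hu).hasDerivWithinAt) hg
    left_mem_uIcc (by rw [h.hf.same]; exact h0) t right_mem_uIcc

theorem Amb.leaf (h : Amb Q r Pr H K M C ψ S) (hH : ContDiff ℝ ∞ H) (hr : H57.IsRet Q U r)
    (hP : IsProj Q Pr) {s t : ℝ} (hs : s ∈ Icc (0 : ℝ) 1)
    (ht : t ∈ Icc (0 : ℝ) 1) (hst : C * |t - s| ≤ 1) {z z' : E × E} (hz : ‖z‖ ≤ M - 2)
    (hz' : ‖z'‖ ≤ M - 2) (hq : z.1 ∈ Q) (hq' : z'.1 ∈ Q) (e : red Pr z = red Pr z') :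
    red Pr (ψ (s, t, z)) = red Pr (ψ (s, t, z')) :=
  h.follow hH hr hP hs ht hst hz hq (g := fun u => red Pr (ψ (s, u, z')))
    (fun _ hu => (h.red_ode hH hr hP hs ht hst hz' hq' hu).hasDerivWithinAt)
    (by rw [h.hf.same]; exact e)

theorem Amb.traj (h : Amb Q r Pr H K M C ψ S) (hH : ContDiff ℝ ∞ H) (hr : H57.IsRet Q U r)
    (hP : IsProj Q Pr) {φ : ℝ → E × E → E × E} (hφ : H57.IsHamFlow Q H φ) {s t : ℝ}
    (hs : s ∈ Icc (0 : ℝ) 1) (ht : t ∈ Icc (0 : ℝ) 1) (hst : C * |t - s| ≤ 1) {z z₀ : E × E}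
    (hz : ‖z‖ ≤ M - 2) (hq : z.1 ∈ Q) (hz₀ : z₀ ∈ H57.Cot Q) (e : red Pr z = φ s z₀) :
    red Pr (ψ (s, t, z)) = φ t z₀ :=
  h.follow hH hr hP hs ht hst hz hq (g := fun u => φ u z₀)
    (fun _ hu => (phi_ode hr hP hH hφ hz₀ (uIcc_subset_Icc hs ht hu)).mono
      (uIcc_subset_Icc hs ht)) e

end Vale.Agent.P220Z.Per
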