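import Vale.Agent.P220.R2.H481.HamExt
import Vale.Agent.P220.R2.H481.HFlow
import Vale.Agent.P220Z.Per.Defs

/-!
# Persistence of generating families: forgetting the normal momentum
-/

namespace Vale.Agent.P220Z.Per

variable {E : Type} [NormedAddCommGroup E] [InnerProductSpace ℝ E]

/-- forget the normal part of the momentum -/
def red (Pr : E → E →L[ℝ] E) (z : E × E) : E × E := (z.1, Pr z.1 z.2)

end Vale.Agent.P220Z.Per
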