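import Vale.Agent.P220Z.Per.Htpy

/-!
# P220, persistence: the family after one step generates the moved Lagrangian
-/

open Set Filter Topology
open scoped ContDiff RealInnerProductSpace

set_option linter.unusedSectionVars false

namespace Vale.Agent.P220Z.Per

open Vale.Agent.P220.R2.H57

variable {G : Type} [Group G]
  {E : Type} [NormedAddCommGroup E] [InnerProductSpace ℝ E]
  {E' : Type} [NormedAddCommGroup E'] [InnerProductSpace ℝ E']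
  {V : Type} [NormedAddCommGroup V] [InnerProductSpace ℝ V]

namespace Aux

variable {α : G →* (E ≃ₗᵢ[ℝ] E)} {Qt : Set E} {Q : Set E'} {P : E → E'} {ε : ℝ}
  {σ : E × E' → E} {β : E' → E'} {A B : Set (E' × E')} {κ R : ℝ}
  {ψ : ℝ × (E' × E') → E' × E'} {S : ℝ × (E' × E') → ℝ} {F : E × V → ℝ} {a m Λ : ℝ}

theorem tan_map (hP : ContDiff ℝ ∞ P) (hm : ∀ b ∈ Qt, P b ∈ Q) {b u : E} (hu : u ∈ Tan Qt b) :
    fderiv ℝ P b u ∈ Tan Q (P b) := by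
  obtain ⟨c, h1, h2, h3, h4⟩ := hu
  refine ⟨fun t => P (c t), hP.comp h1, fun t => hm _ (h2 t), by simp only [h3], ?_⟩
  have h5 : HasDerivAt c u 0 := h4 ▸ (h1.differentiable (by simp) 0).hasDerivAt
  have h6 := (hP.differentiable (by simp) (c 0)).hasFDerivAt.comp_hasDerivAt (0 : ℝ) h5
  rw [h3] at h6
  exact h6.deriv

theorem zero_tan {b : E} (hb : b ∈ Qt) : (0 : E) ∈ Tan Qt b :=
  ⟨fun _ => b, contDiff_const, fun _ => hb, rfl, deriv_const _ _⟩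

theorem one_mem : (1 : ℝ) ∈ Icc (0 : ℝ) 1 := ⟨zero_le_one, le_rfl⟩

/-- the bound for the momenta -/
structure Bd (Qt : Set E) (P : E → E') (ε : ℝ) (σ : E × E' → E) (A : Set (E' × E')) (Λ R : ℝ) :
    Prop where
  one : 1 ≤ Λ
  dσ : ∀ b ∈ Qt, ∀ ξ, ‖ξ‖ ≤ ε → ∀ η,
    ‖fderiv ℝ P (σ (b, ξ)) (fderiv ℝ σ (b, ξ) (0, η))‖ ≤ Λ * ‖η‖
  le : ∀ z ∈ A, Λ * ‖z.2‖ ≤ R

namespace Ctx

theorem pbound (h : Ctx α Qt Q P ε σ β A B κ R ψ S) (hB : Bd Qt P ε σ A Λ R) {b : E} (hb : b ∈ Qt)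
    {x : V} {ξ p p₀ q : E'} (hξ : ‖ξ‖ ≤ ε) (hA : (q, p₀) ∈ A) (hc : Cov Qt P F (σ (b, ξ)) x p₀)
    (hp : ∀ η, ⟪p, η⟫ = fderiv ℝ F (σ (b, ξ), x) (fderiv ℝ σ (b, ξ) (0, η), 0)) : ‖p‖ ≤ R := by
  have h1 := hp p
  rw [← hc _ (h.lift.tan b hb ξ hξ p), real_inner_self_eq_norm_sq] at h1
  have h2 := (real_inner_le_norm p₀ _).trans
    (mul_le_mul_of_nonneg_left (hB.dσ b hb ξ hξ p) (norm_nonneg _))
  have h3 : Λ * ‖p₀‖ ≤ R := hB.le _ hA
  have h4 : 0 ≤ Λ * ‖p₀‖ := mul_nonneg (by linarith [hB.one]) (norm_nonneg _)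
  by_contra hn
  have hn := not_le.1 hn
  have h5 : 0 < ‖p‖ := by linarith
  nlinarith

theorem pcov (h : Ctx α Qt Q P ε σ β A B κ R ψ S) {b : E} (hb : b ∈ Qt)
    {x : V} {ξ p : E'} (hξ : ‖ξ‖ ≤ ε) (hq : P b + ξ ∈ Q)
    (hp : ∀ η, ⟪p, η⟫ = fderiv ℝ F (σ (b, ξ), x) (fderiv ℝ σ (b, ξ) (0, η), 0)) :
    Cov Qt P F (σ (b, ξ)) x p := fun u hu => by
  rw [hp, h.lift.sec b hb ξ hξ hq u hu]

theorem nor_of_cov (h : Ctx α Qt Q P ε σ β A B κ R ψ S) {b : E} (hb : b ∈ Qt) {p p' : E'}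
    (hp : ∀ u ∈ Tan Qt b, ⟪p, fderiv ℝ P b u⟫ = ⟪p', fderiv ℝ P b u⟫) : Nor Q (P b) (p - p') := by
  intro v hv
  obtain ⟨u, hu, rfl⟩ := h.cov.surj b hb v hv
  rw [inner_sub_left, hp u hu, sub_self]

theorem cov_of_nor (h : Ctx α Qt Q P ε σ β A B κ R ψ S) {b : E} {p p' : E'}
    (hp : Nor Q (P b) (p - p')) {u : E} (hu : u ∈ Tan Qt b) :
    ⟪p, fderiv ℝ P b u⟫ = ⟪p', fderiv ℝ P b u⟫ := by
  have := hp _ (tan_map h.cov.smooth h.cov.maps hu)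
  rw [inner_sub_left] at this
  linarith

/-- the new covector -/
theorem covψ (h : Ctx α Qt Q P ε σ β A B κ R ψ S) (hF : ContDiff ℝ ∞ F) {b : E} (hb : b ∈ Qt)
    {x : V} {ξ p : E'} (hξ : ‖ξ‖ < ε) (h2 : (ψ (1, (P b + ξ, p))).1 = P b)
    (hp : ∀ η, ⟪p, η⟫ = fderiv ℝ F (σ (b, ξ), x) (fderiv ℝ σ (b, ξ) (0, η), 0)) :
    Cov Qt P (fun w => stp P σ β ψ S F (1, w)) b (Aux.mk x ξ p) (ψ (1, (P b + ξ, p))).2 := by
  intro u hu
  have e0 : (0 : St V E') = Aux.mk 0 0 0 := rfl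
  have e1 : fderiv ℝ σ (b, ξ) (u, 0) = fderiv ℝ σ (b, ξ) (0, fderiv ℝ P b u) := by
    have e2 : ((u, 0) : E × E') = (u, -fderiv ℝ P b u) + (0, fderiv ℝ P b u) := by simp
    rw [e2, map_add, h.lift.diag b hb ξ hξ.le u hu, zero_add]
  rw [e0, h.fd' hF one_mem _ _ _ _ hξ, h2, one_smul, smul_zero, e1, ← hp]
  simp only [sub_self, inner_zero_right, inner_sub_left]
  ring

theorem κ_nonneg (h : Ctx α Qt Q P ε σ β A B κ R ψ S) : 0 ≤ κ :=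
  (abs_nonneg _).trans (h.move.act 1 one_mem 0)

/-- the structure of a critical point in the window -/
theorem inner_crit (h : Ctx α Qt Q P ε σ β A B κ R ψ S) (hB : Bd Qt P ε σ A Λ R)
    (hF : ContDiff ℝ ∞ F) (hG : IsGen Qt P A a m F) (hm : κ < m) {b : E} (hb : b ∈ Qt) {x : V}
    {ξ p : E'} (hs : dV (fun w => stp P σ β ψ S F (1, w)) b (Aux.mk x ξ p) = 0)
    (hw : |stp P σ β ψ S F (1, (b, Aux.mk x ξ p))| < a) :
    ‖ξ‖ < ε ∧ (ψ (1, (P b + ξ, p))).1 = P b ∧ σ (b, ξ) ∈ Qt ∧ dV F (σ (b, ξ)) x = 0 ∧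
      |F (σ (b, ξ), x)| < a ∧
      (∀ η, ⟪p, η⟫ = fderiv ℝ F (σ (b, ξ), x) (fderiv ℝ σ (b, ξ) (0, η), 0)) ∧ ‖p‖ ≤ R ∧
      P b + ξ ∈ Q ∧ P (σ (b, ξ)) = P b + ξ ∧
      ∃ p₀, (P b + ξ, p₀) ∈ A ∧ Nor Q (P b + ξ) (p - p₀) := by
  obtain ⟨h1, h2, h3, h4, h5⟩ := h.crit hF one_mem hs
  simp only [one_smul, one_mul] at h3 h4 h5
  have hε := h.lift.pos
  have hb' := h.lift.mem b hb ξ (by linarith)
  have h6 : |F (σ (b, ξ), x)| < a := by
    rcases hG.gap _ hb' x h3 with h7 | h7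
    · linarith [h.κ_nonneg]
    · have h8 := abs_sub (F (σ (b, ξ), x) + S (1, (P b + ξ, p))) (S (1, (P b + ξ, p)))
      rw [add_sub_cancel_right, ← h5] at h8
      linarith [h.move.act 1 one_mem (P b + ξ, p)]
  obtain ⟨p₀, h7, h8⟩ := hG.mem _ hb' x h3 h6
  have h9 : ‖p‖ ≤ R := h.pbound hB hb h1.le h7 h8 h4
  have h10 : P b + ξ ∈ Q := h.move.back (P b + ξ, p) h9 (by rw [h2]; exact h.cov.maps b hb)
  have h11 : P (σ (b, ξ)) = P b + ξ := h.lift.proj b hb ξ (by linarith) h10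
  refine ⟨h1, h2, hb', h3, h6, h4, h9, h10, h11, p₀, h11 ▸ h7, ?_⟩
  rw [← h11]
  exact h.nor_of_cov hb' fun u hu => by rw [h.pcov hb h1.le h10 h4 u hu, h8 u hu]

theorem gen_mem (h : Ctx α Qt Q P ε σ β A B κ R ψ S) (hB : Bd Qt P ε σ A Λ R)
    (hF : ContDiff ℝ ∞ F) (hG : IsGen Qt P A a m F) (hm : κ < m) {b : E} (hb : b ∈ Qt)
    {X : St V E'} (hs : dV (fun w => stp P σ β ψ S F (1, w)) b X = 0)
    (hw : |stp P σ β ψ S F (1, (b, X))| < a) :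
    ∃ p, (P b, p) ∈ B ∧ Cov Qt P (fun w => stp P σ β ψ S F (1, w)) b X p := by
  obtain ⟨x, ξ, p, rfl⟩ := exists_mk X
  obtain ⟨h1, h2, -, -, -, h6, h7, h8, -, p₀, h10, h11⟩ := h.inner_crit hB hF hG hm hb hs hw
  obtain ⟨p', h12, h13⟩ := h.move.mem (P b + ξ, p) h8 h7 p₀ h10 h11
  rw [h2] at h12 h13
  refine ⟨p', h12, fun u hu => ?_⟩
  rw [← h.cov_of_nor h13 hu]
  exact h.covψ hF hb h1 h2 h6 u hu

theorem gen_inj (h : Ctx α Qt Q P ε σ β A B κ R ψ S) (hB : Bd Qt P ε σ A Λ R)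
    (hF : ContDiff ℝ ∞ F) (hG : IsGen Qt P A a m F) (hm : κ < m) {b : E} (hb : b ∈ Qt)
    {X X' : St V E'} (hs : dV (fun w => stp P σ β ψ S F (1, w)) b X = 0)
    (hs' : dV (fun w => stp P σ β ψ S F (1, w)) b X' = 0)
    (hw : |stp P σ β ψ S F (1, (b, X))| < a) (hw' : |stp P σ β ψ S F (1, (b, X'))| < a)
    (he : ∀ u ∈ Tan Qt b, fderiv ℝ (fun w => stp P σ β ψ S F (1, w)) (b, X) (u, 0) =
      fderiv ℝ (fun w => stp P σ β ψ S F (1, w)) (b, X') (u, 0)) : X = X' := by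
  obtain ⟨x, ξ, p, rfl⟩ := exists_mk X
  obtain ⟨x', ξ', p', rfl⟩ := exists_mk X'
  obtain ⟨h1, h2, h3, h4, h5, h6, h7, h8, h9, -⟩ := h.inner_crit hB hF hG hm hb hs hw
  obtain ⟨g1, g2, -, g4, g5, g6, g7, g8, -, -⟩ := h.inner_crit hB hF hG hm hb hs' hw'
  have k1 : Nor Q (P b) ((ψ (1, (P b + ξ, p))).2 - (ψ (1, (P b + ξ', p'))).2) :=
    h.nor_of_cov hb fun u hu => by
      rw [h.covψ hF hb h1 h2 h6 u hu, h.covψ hF hb g1 g2 g6 u hu, he u hu]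
  obtain ⟨k2, k3⟩ := h.move.inj (P b + ξ, p) (P b + ξ', p') h8 g8 h7 g7 (by rw [h2, g2])
    (by rw [h2]; exact k1)
  have k4 : ξ = ξ' := add_left_cancel k2
  subst k4
  have k5 : Nor Q (P (σ (b, ξ))) (p - p') := by
    rw [h9]
    exact k3
  have k6 : x = x' := hG.inj _ h3 x x' h4 g4 h5 g5 fun u hu => by
    rw [← h.pcov hb h1.le h8 h6 u hu, ← h.pcov hb h1.le h8 g6 u hu]
    exact h.cov_of_nor k5 hu
  subst k6
  have k7 : p = p' := ext_inner_right ℝ fun η => by rw [h6, g6]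
  rw [k7]

theorem gen_onto [FiniteDimensional ℝ E'] (h : Ctx α Qt Q P ε σ β A B κ R ψ S)
    (hB : Bd Qt P ε σ A Λ R) (hF : ContDiff ℝ ∞ F) (hG : IsGen Qt P A a m F) (hm : κ < m) {b : E}
    (hb : b ∈ Qt) {p' : E'} (hp' : (P b, p') ∈ B) :
    ∃ X, dV (fun w => stp P σ β ψ S F (1, w)) b X = 0 ∧ |stp P σ β ψ S F (1, (b, X))| < a ∧
      Cov Qt P (fun w => stp P σ β ψ S F (1, w)) b X p' := by
  have : CompleteSpace E' := FiniteDimensional.complete ℝ E'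
  obtain ⟨⟨q, p₀⟩, hz, hq, h1⟩ := h.move.onto _ hp'
  have hε := h.lift.pos
  obtain ⟨ξ, rfl⟩ : ∃ ξ, q = P b + ξ := ⟨q - P b, by simp⟩
  have h2 : ‖p₀‖ ≤ R := by
    have h3 : Λ * ‖p₀‖ ≤ R := hB.le _ hz
    nlinarith [hB.one, norm_nonneg p₀]
  have h3 : ‖ξ‖ < ε := by
    have h4 := (h1 p₀ h2 (fun v _ => by simp)).1
    have h5 := h.move.near 1 one_mem (P b + ξ, p₀)
    simp only at h4 h5
    rw [h4, sub_add_cancel_left, norm_neg] at h5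
    linarith
  have hb' := h.lift.mem b hb ξ (by linarith)
  have h4 : P (σ (b, ξ)) = P b + ξ := h.lift.proj b hb ξ (by linarith) hq
  obtain ⟨x, h5, h6, h7⟩ := hG.onto _ hb' p₀ (by rw [h4]; exact hz)
  obtain ⟨p, hp⟩ : ∃ p : E', ∀ η,
      ⟪p, η⟫ = fderiv ℝ F (σ (b, ξ), x) (fderiv ℝ σ (b, ξ) (0, η), 0) :=
    ⟨(InnerProductSpace.toDual ℝ E').symm ((fderiv ℝ F (σ (b, ξ), x)).comp
      ((ContinuousLinearMap.inl ℝ E V).comp ((fderiv ℝ σ (b, ξ)).comp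
        (ContinuousLinearMap.inr ℝ E E')))), fun η => InnerProductSpace.toDual_symm_apply⟩
  have h8 : ‖p‖ ≤ R := h.pbound hB hb h3.le hz h7 hp
  have h9 : Nor Q (P b + ξ) (p - p₀) := by
    rw [← h4]
    exact h.nor_of_cov hb' fun u hu => by rw [h.pcov hb h3.le hq hp u hu, h7 u hu]
  obtain ⟨h10, h11⟩ := h1 p h8 h9
  have h12 : dV (fun w => stp P σ β ψ S F (1, w)) b (Aux.mk x ξ p) = 0 :=
    h.crit_of hF one_mem h3 h10 (by rw [one_smul]; exact h5)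
      (by simp only [one_smul, one_mul]; exact hp)
  refine ⟨Aux.mk x ξ p, h12, ?_, fun u hu => ?_⟩
  · obtain ⟨-, -, -, -, h13⟩ := h.crit hF one_mem h12
    rw [h13, one_smul]
    have h14 := h.move.act 1 one_mem (P b + ξ, p)
    have h15 := abs_add_le (F (σ (b, ξ), x)) (S (1, (P b + ξ, p)))
    rcases hG.gap _ hb' x h5 with h16 | h16 <;> linarith [h.κ_nonneg]
  · rw [← h.cov_of_nor h11 hu]
    exact h.covψ hF hb h3 h10 hp u hu

theorem gen_reg (h : Ctx α Qt Q P ε σ β A B κ R ψ S) (hB : Bd Qt P ε σ A Λ R)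
    (hF : ContDiff ℝ ∞ F) (hG : IsGen Qt P A a m F) (hm : κ < m) {b : E} (hb : b ∈ Qt)
    {X : St V E'} (hs : dV (fun w => stp P σ β ψ S F (1, w)) b X = 0)
    (hw : |stp P σ β ψ S F (1, (b, X))| < a) :
    Reg Qt (fun w => stp P σ β ψ S F (1, w)) b X := by
  obtain ⟨x, ξ, p, rfl⟩ := exists_mk X
  obtain ⟨h1, h2, h3, h4, h5, -, h7, h8, h9, -⟩ := h.inner_crit hB hF hG hm hb hs hw
  intro Y hY
  obtain ⟨v, η₀, π₀, rfl⟩ := exists_mk Y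
  simp only [mk_line] at hY
  set Ψ : E' × E' → E' × E' := fun y => ψ (1, y) with hΨ
  have sΨ : ContDiff ℝ ∞ Ψ := slice_smooth h.move.sψ 1
  set z : ℝ → E' × E' := fun t => (P b + (ξ + t • η₀), p + t • π₀) with hz
  have z0 : z 0 = (P b + ξ, p) := by simp [hz]
  have dz : HasDerivAt z (η₀, π₀) 0 :=
    ((hasDerivAt_line ξ η₀ 0).const_add _).prodMk (hasDerivAt_line p π₀ 0)
  have dΨ : HasDerivAt (fun t => Ψ (z t)) (fderiv ℝ Ψ (P b + ξ, p) (η₀, π₀)) 0 := by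
    have := (sΨ.differentiable (by simp) (z 0)).hasFDerivAt.comp_hasDerivAt (0 : ℝ) dz
    rwa [z0] at this
  have dΨ1 : HasDerivAt (fun t => (Ψ (z t)).1) (fderiv ℝ Ψ (P b + ξ, p) (η₀, π₀)).1 0 :=
    (ContinuousLinearMap.fst ℝ E' E').hasFDerivAt.comp_hasDerivAt (0 : ℝ) dΨ
  have dΨ2 : HasDerivAt (fun t => (Ψ (z t)).2) (fderiv ℝ Ψ (P b + ξ, p) (η₀, π₀)).2 0 :=
    (ContinuousLinearMap.snd ℝ E' E').hasFDerivAt.comp_hasDerivAt (0 : ℝ) dΨ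
  have mid : ∀ c : E' × E', HasDerivAt
      (fun t => (⟪(fderiv ℝ Ψ (z t) c).2, P b - (Ψ (z t)).1⟫ : ℝ))
      (-⟪(fderiv ℝ Ψ (P b + ξ, p) c).2, (fderiv ℝ Ψ (P b + ξ, p) (η₀, π₀)).1⟫) 0 := by
    intro c
    have s1 : ContDiff ℝ ∞ fun y => (fderiv ℝ Ψ y c).2 :=
      contDiff_snd.comp ((sΨ.fderiv_right (m := ∞) (by simp)).clm_apply contDiff_const)
    have s2 := (s1.differentiable (by simp) (z 0)).hasFDerivAt.comp_hasDerivAt (0 : ℝ) dz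
    refine (s2.inner ℝ (dΨ1.const_sub (P b))).congr_deriv ?_
    have s3 : P b - (Ψ (z 0)).1 = 0 := by
      rw [z0]
      exact sub_eq_zero.2 h2.symm
    simp only [Function.comp_apply, s3, inner_zero_right, add_zero, inner_neg_right]
    rw [z0]
  have ev : ∀ᶠ t : ℝ in 𝓝 0, ‖ξ + t • η₀‖ < ε := by
    have c1 : ContinuousAt (fun t : ℝ => ‖ξ + t • η₀‖) 0 := by fun_prop
    exact c1.eventually_lt continuousAt_const (by simpa using h1)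
  have key : ∀ u ∈ Tan Qt b, ∀ (w : V) (η π : E'), HasDerivAt (fun t : ℝ =>
      fderiv ℝ F (σ (b, ξ + t • η₀), x + t • v) (fderiv ℝ σ (b, ξ + t • η₀) (u, η), w) +
      ⟪(fderiv ℝ Ψ (z t) (fderiv ℝ P b u + η, π)).2, P b - (Ψ (z t)).1⟫ +
      ⟪(Ψ (z t)).2 - (p + t • π₀), fderiv ℝ P b u⟫ - ⟪p + t • π₀, η⟫) 0 0 := by
    intro u hu w η π
    refine (hY u hu (Aux.mk w η π)).congr_of_eventuallyEq ?_
    filter_upwards [ev] with t ht
    rw [h.fd' hF one_mem _ _ _ _ ht, one_smul, one_smul]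
  have k1 : (fderiv ℝ Ψ (P b + ξ, p) (η₀, π₀)).1 = 0 := by
    refine norm_le_zero_iff.1 ?_
    have k2 := est_D (c := 0) (D := (fderiv ℝ Ψ (P b + ξ, p) (η₀, π₀)).1) le_rfl
      (h.move.dp 1 one_mem (P b + ξ, p)) fun π => by
        have k3 := key 0 (zero_tan hb) 0 0 π
        simp only [map_zero, Prod.mk_zero_zero, add_zero, inner_zero_right, sub_zero,
          zero_add] at k3
        have k4 := neg_eq_zero.1 ((mid (0, π)).unique k3)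
        rw [zero_mul]
        exact (abs_eq_zero.2 k4).le
    linarith
  have k2 : Nor Q (P b) (fderiv ℝ Ψ (P b + ξ, p) (η₀, π₀)).2 := by
    intro v' hv'
    obtain ⟨u, hu, rfl⟩ := h.cov.surj b hb v' hv'
    have k3 : HasDerivAt (fun t : ℝ => (⟪(Ψ (z t)).2, fderiv ℝ P b u⟫ : ℝ)) 0 0 := by
      refine (key u hu 0 (-fderiv ℝ P b u) 0).congr_of_eventuallyEq ?_
      filter_upwards [ev] with t ht
      rw [h.lift.diag b hb _ ht.le u hu]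
      simp only [map_zero, Prod.mk_zero_zero, add_neg_cancel, Prod.snd_zero, inner_zero_left,
        inner_neg_right, inner_sub_left]
      ring
    have k4 := (dΨ2.inner ℝ (hasDerivAt_const (0 : ℝ) (fderiv ℝ P b u))).unique k3
    simpa only [inner_zero_right, zero_add] using k4
  obtain ⟨k3, k4⟩ := h.move.lin (P b + ξ, p) h8 h7 (η₀, π₀) k1 (by rw [h2]; exact k2)
  simp only at k3 k4
  subst k3
  have k5 : ∀ (w : V) (η : E'), HasDerivAt (fun t : ℝ =>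
      fderiv ℝ F (σ (b, ξ), x + t • v) (fderiv ℝ σ (b, ξ) (0, η), w)) ⟪π₀, η⟫ 0 := by
    intro w η
    have k6 := key 0 (zero_tan hb) w η 0
    have k7 := mid (η, 0)
    rw [k1, inner_zero_right, neg_zero] at k7
    have k8 := (hasDerivAt_line p π₀ 0).inner ℝ (hasDerivAt_const (0 : ℝ) η)
    have k9 := (k6.sub k7).add k8
    simp only [smul_zero, add_zero, map_zero, zero_add, inner_zero_right, sub_self] at k9
    refine k9.congr_of_eventuallyEq (Eventually.of_forall fun t => ?_)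
    simp only [Pi.add_apply, Pi.sub_apply]
    ring
  have k6 : v = 0 := hG.reg _ h3 x h4 h5 v fun u hu w => by
    have k7 := k5 w (fderiv ℝ P (σ (b, ξ)) u)
    rw [h.lift.sec b hb ξ h1.le h8 u hu,
      k4 _ (h9 ▸ tan_map h.cov.smooth h.cov.maps hu)] at k7
    exact k7
  subst k6
  have k7 : π₀ = 0 := ext_inner_right ℝ fun η => by
    have k8 := k5 0 η
    simp only [smul_zero, add_zero] at k8
    rw [k8.unique (hasDerivAt_const _ _), inner_zero_left]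
  rw [k7]
  rfl

theorem isGen [FiniteDimensional ℝ E'] (h : Ctx α Qt Q P ε σ β A B κ R ψ S)
    (hB : Bd Qt P ε σ A Λ R) (hF : ContDiff ℝ ∞ F) (hG : IsGen Qt P A a m F) (hm : κ < m) :
    IsGen Qt P B a (m - κ) fun w => stp P σ β ψ S F (1, w) where
  gap := fun _ hb _ hs => h.gap hF hG.gap one_mem hb hs
  mem := fun _ hb _ hs hw => h.gen_mem hB hF hG hm hb hs hw
  inj := fun _ hb _ _ hs hs' hw hw' he => h.gen_inj hB hF hG hm hb hs hs' hw hw' he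
  onto := fun _ hb _ hp => h.gen_onto hB hF hG hm hb hp
  reg := fun _ hb _ hs hw => h.gen_reg hB hF hG hm hb hs hw

end Ctx

end Aux

end Vale.Agent.P220Z.Per
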