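import Vale.Agent.P220Z.Per.Stp

/-!
# P220, persistence: critical points of the step and the homotopy to the stabilisation
-/

open Set Filter Topology
open scoped ContDiff RealInnerProductSpace

set_option linter.unusedSectionVars false

namespace Vale.Agent.P220Z.Per

open Vale.Agent.P220.R2.H57

variable {G : Type} [Group G]
  {E : Type} [NormedAddCommGroup E] [InnerProductSpace ℝ E]
  {E' : Type} [NormedAddCommGroup E'] [InnerProductSpace ℝ E']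
  {V : Type} [NormedAddCommGroup V] [InnerProductSpace ℝ V]

namespace Aux

theorem est_xi {M : E' → E'} {ε c : ℝ} {y q B ξ : E'} (hε : 0 < ε) (hc : c ≤ ε / 8)
    (hM : ∀ π, ‖M π - π‖ ≤ ‖π‖ / 4) (hq : ‖q - (y + B)‖ ≤ ε / 4) (hB : ‖B‖ ≤ 2 * ε)
    (h : ∀ π, |⟪M π, y - q⟫ + ⟪π, B - ξ⟫| ≤ c * ‖π‖) : ‖ξ‖ < ε := by
  by_contra hn
  have hn : ε ≤ ‖ξ‖ := not_lt.1 hn
  have e : ⟪M ξ, y - q⟫ + ⟪ξ, B - ξ⟫ =
      -⟪M ξ - ξ, B⟫ - ⟪M ξ, q - (y + B)⟫ - ‖ξ‖ ^ 2 := by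
    rw [← real_inner_self_eq_norm_sq]
    simp only [inner_sub_right, inner_sub_left, inner_add_right]
    ring
  have h1 := h ξ
  rw [e] at h1
  have h2 : |⟪M ξ - ξ, B⟫| ≤ ‖ξ‖ / 4 * (2 * ε) :=
    (abs_real_inner_le_norm _ _).trans (mul_le_mul (hM ξ) hB (norm_nonneg _) (by positivity))
  have h3 : ‖M ξ‖ ≤ ‖ξ‖ / 4 + ‖ξ‖ := by
    calc ‖M ξ‖ = ‖(M ξ - ξ) + ξ‖ := by rw [sub_add_cancel]
      _ ≤ ‖M ξ - ξ‖ + ‖ξ‖ := norm_add_le _ _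
      _ ≤ _ := by linarith [hM ξ]
  have h4 : |⟪M ξ, q - (y + B)⟫| ≤ (‖ξ‖ / 4 + ‖ξ‖) * (ε / 4) :=
    (abs_real_inner_le_norm _ _).trans (mul_le_mul h3 hq (norm_nonneg _) (by positivity))
  have h5 := abs_le.1 h1
  have h6 := abs_le.1 h2
  have h7 := abs_le.1 h4
  have h8 : c * ‖ξ‖ ≤ ε / 8 * ‖ξ‖ := mul_le_mul_of_nonneg_right hc (norm_nonneg _)
  have h9 : ε * ‖ξ‖ ≤ ‖ξ‖ * ‖ξ‖ := mul_le_mul_of_nonneg_right hn (norm_nonneg _)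
  have h10 : 0 < ε * ‖ξ‖ := mul_pos hε (hε.trans_le hn)
  nlinarith

theorem est_D {M : E' → E'} {c : ℝ} {D : E'} (hc : 0 ≤ c) (hM : ∀ π, ‖M π - π‖ ≤ ‖π‖ / 4)
    (h : ∀ π, |⟪M π, D⟫| ≤ c * ‖π‖) : ‖D‖ ≤ 2 * c := by
  have e : ⟪M D, D⟫ = ⟪M D - D, D⟫ + ‖D‖ ^ 2 := by
    rw [← real_inner_self_eq_norm_sq, inner_sub_left]
    ring
  have h1 := h D
  rw [e] at h1
  have h2 : |⟪M D - D, D⟫| ≤ ‖D‖ / 4 * ‖D‖ :=
    (abs_real_inner_le_norm _ _).trans (mul_le_mul_of_nonneg_right (hM D) (norm_nonneg _))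
  have h5 := abs_le.1 h1
  have h6 := abs_le.1 h2
  by_contra hn
  have hn : 2 * c < ‖D‖ := not_le.1 hn
  have h7 : 0 < ‖D‖ := by linarith
  nlinarith

theorem exists_mk (X : St V E') : ∃ x ξ p, X = mk x ξ p := ⟨_, _, _, (mk_eta X).symm⟩

/-- the data of one step -/
structure Ctx (α : G →* (E ≃ₗᵢ[ℝ] E)) (Qt : Set E) (Q : Set E') (P : E → E') (ε : ℝ)
    (σ : E × E' → E) (β : E' → E') (A B : Set (E' × E')) (κ R : ℝ)
    (ψ : ℝ × (E' × E') → E' × E') (S : ℝ × (E' × E') → ℝ) : Prop where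
  cov : IsCover α Qt Q P
  lift : IsLift α Qt Q P ε σ
  beta : IsBeta ε β
  move : IsMove Q A B ε κ R ψ S

variable {α : G →* (E ≃ₗᵢ[ℝ] E)} {Qt : Set E} {Q : Set E'} {P : E → E'} {ε : ℝ}
  {σ : E × E' → E} {β : E' → E'} {A B : Set (E' × E')} {κ R : ℝ}
  {ψ : ℝ × (E' × E') → E' × E'} {S : ℝ × (E' × E') → ℝ} {F : E × V → ℝ}

namespace Ctx

theorem smooth (h : Ctx α Qt Q P ε σ β A B κ R ψ S) (hF : ContDiff ℝ ∞ F) :
    ContDiff ℝ ∞ (stp P σ β ψ S F) :=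
  stp_smooth h.cov.smooth h.lift.smooth h.beta.smooth h.move.sψ h.move.sS hF

theorem fd (h : Ctx α Qt Q P ε σ β A B κ R ψ S) (hF : ContDiff ℝ ∞ F) {τ : ℝ}
    (hτ : τ ∈ Icc (0 : ℝ) 1) (b u : E) (x w : V) (ξ p η π : E') :
    fderiv ℝ (fun y => stp P σ β ψ S F (τ, y)) (b, Aux.mk x ξ p) (u, Aux.mk w η π) =
      fderiv ℝ F (σ (b, τ • β ξ), x) (fderiv ℝ σ (b, τ • β ξ) (u, τ • fderiv ℝ β ξ η), w) +
      ⟪(fderiv ℝ (fun y => ψ (τ, y)) (P b + β ξ, p) (fderiv ℝ P b u + fderiv ℝ β ξ η, π)).2,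
        P b - (ψ (τ, (P b + β ξ, p))).1⟫ +
      ⟪(ψ (τ, (P b + β ξ, p))).2 - p, fderiv ℝ P b u⟫ - ⟪p, η⟫ + ⟪π, β ξ - ξ⟫ :=
  fderiv_stp h.cov.smooth h.lift.smooth h.beta.smooth h.move.sψ h.move.sS hF
    (h.move.dS τ hτ) b u x w ξ p η π

/-- the differential where the cutoff is the identity -/
theorem fd' (h : Ctx α Qt Q P ε σ β A B κ R ψ S) (hF : ContDiff ℝ ∞ F) {τ : ℝ}
    (hτ : τ ∈ Icc (0 : ℝ) 1) (b u : E) (x w : V) {ξ : E'} (hξ : ‖ξ‖ < ε) (p η π : E') :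
    fderiv ℝ (fun y => stp P σ β ψ S F (τ, y)) (b, Aux.mk x ξ p) (u, Aux.mk w η π) =
      fderiv ℝ F (σ (b, τ • ξ), x) (fderiv ℝ σ (b, τ • ξ) (u, τ • η), w) +
      ⟪(fderiv ℝ (fun y => ψ (τ, y)) (P b + ξ, p) (fderiv ℝ P b u + η, π)).2,
        P b - (ψ (τ, (P b + ξ, p))).1⟫ +
      ⟪(ψ (τ, (P b + ξ, p))).2 - p, fderiv ℝ P b u⟫ - ⟪p, η⟫ := by
  rw [h.fd hF hτ, h.beta.eq ξ hξ.le, h.beta.fderiv_eq hξ, sub_self, inner_zero_right, add_zero]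

theorem dV_p (h : Ctx α Qt Q P ε σ β A B κ R ψ S) (hF : ContDiff ℝ ∞ F) {τ : ℝ}
    (hτ : τ ∈ Icc (0 : ℝ) 1) (b : E) (x : V) (ξ p π : E') :
    dV (fun y => stp P σ β ψ S F (τ, y)) b (Aux.mk x ξ p) (Aux.mk 0 0 π) =
      ⟪(fderiv ℝ (fun y => ψ (τ, y)) (P b + β ξ, p) (0, π)).2,
        P b - (ψ (τ, (P b + β ξ, p))).1⟫ + ⟪π, β ξ - ξ⟫ := by
  rw [dV_apply (slice_smooth (h.smooth hF) τ), h.fd hF hτ]
  simp only [map_zero, smul_zero, Prod.mk_zero_zero, add_zero, inner_zero_right, sub_zero,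
    zero_add]

theorem dV_x (h : Ctx α Qt Q P ε σ β A B κ R ψ S) (hF : ContDiff ℝ ∞ F) {τ : ℝ}
    (hτ : τ ∈ Icc (0 : ℝ) 1) (b : E) (x w : V) (ξ p : E') :
    dV (fun y => stp P σ β ψ S F (τ, y)) b (Aux.mk x ξ p) (Aux.mk w 0 0) =
      dV F (σ (b, τ • β ξ)) x w := by
  rw [dV_apply (slice_smooth (h.smooth hF) τ), h.fd hF hτ, dV_apply hF]
  simp only [map_zero, smul_zero, Prod.mk_zero_zero, add_zero, inner_zero_right, sub_zero,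
    Prod.snd_zero, inner_zero_left]

theorem dV_all (h : Ctx α Qt Q P ε σ β A B κ R ψ S) (hF : ContDiff ℝ ∞ F) {τ : ℝ}
    (hτ : τ ∈ Icc (0 : ℝ) 1) (b : E) (x w : V) {ξ : E'} (hξ : ‖ξ‖ < ε) (p η π : E') :
    dV (fun y => stp P σ β ψ S F (τ, y)) b (Aux.mk x ξ p) (Aux.mk w η π) =
      τ * fderiv ℝ F (σ (b, τ • ξ), x) (fderiv ℝ σ (b, τ • ξ) (0, η), 0) +
      dV F (σ (b, τ • ξ)) x w +
      ⟪(fderiv ℝ (fun y => ψ (τ, y)) (P b + ξ, p) (η, π)).2, P b - (ψ (τ, (P b + ξ, p))).1⟫ -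
      ⟪p, η⟫ := by
  rw [dV_apply (slice_smooth (h.smooth hF) τ), h.fd' hF hτ _ _ _ _ hξ, dV_apply hF]
  have e1 : ((0 : E), τ • η) = τ • ((0 : E), η) := by simp
  have e2 : (τ • fderiv ℝ σ (b, τ • ξ) (0, η), w) =
      τ • (fderiv ℝ σ (b, τ • ξ) (0, η), (0 : V)) + (0, w) := by simp
  rw [e1, map_smul, e2, map_add, map_smul, smul_eq_mul]
  simp only [map_zero, zero_add, inner_zero_right, add_zero]

/-- a small fibre gradient forces a small displacement -/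
theorem small (h : Ctx α Qt Q P ε σ β A B κ R ψ S) (hF : ContDiff ℝ ∞ F) {τ : ℝ}
    (hτ : τ ∈ Icc (0 : ℝ) 1) {b : E} {x : V} {ξ p : E'} {c : ℝ} (hc : c ≤ ε / 8)
    (hs : ‖dV (fun y => stp P σ β ψ S F (τ, y)) b (Aux.mk x ξ p)‖ ≤ c) :
    ‖ξ‖ < ε ∧ ‖P b - (ψ (τ, (P b + ξ, p))).1‖ ≤ 2 * c := by
  have h1 : ∀ π, |⟪(fderiv ℝ (fun y => ψ (τ, y)) (P b + β ξ, p) (0, π)).2,
      P b - (ψ (τ, (P b + β ξ, p))).1⟫ + ⟪π, β ξ - ξ⟫| ≤ c * ‖π‖ := by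
    intro π
    rw [← h.dV_p hF hτ b x ξ p π, ← Real.norm_eq_abs, ← norm_mk_p (V := V) π]
    exact ContinuousLinearMap.le_of_opNorm_le _ hs _
  have h2 : ‖ξ‖ < ε := est_xi h.lift.pos hc (h.move.dp τ hτ _) (h.move.near τ hτ _)
    (h.beta.le ξ) h1
  refine ⟨h2, ?_⟩
  rw [h.beta.eq ξ h2.le] at h1
  refine est_D ((norm_nonneg _).trans hs) (h.move.dp τ hτ (P b + ξ, p)) fun π => ?_
  simpa only [sub_self, inner_zero_right, add_zero] using h1 π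

/-- the critical points of the step -/
theorem crit (h : Ctx α Qt Q P ε σ β A B κ R ψ S) (hF : ContDiff ℝ ∞ F) {τ : ℝ}
    (hτ : τ ∈ Icc (0 : ℝ) 1) {b : E} {x : V} {ξ p : E'}
    (hs : dV (fun y => stp P σ β ψ S F (τ, y)) b (Aux.mk x ξ p) = 0) :
    ‖ξ‖ < ε ∧ (ψ (τ, (P b + ξ, p))).1 = P b ∧ dV F (σ (b, τ • ξ)) x = 0 ∧
      (∀ η, ⟪p, η⟫ = τ * fderiv ℝ F (σ (b, τ • ξ), x) (fderiv ℝ σ (b, τ • ξ) (0, η), 0)) ∧
      stp P σ β ψ S F (τ, (b, Aux.mk x ξ p)) = F (σ (b, τ • ξ), x) + S (τ, (P b + ξ, p)) := by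
  obtain ⟨h1, h2⟩ := h.small hF hτ (c := 0) (by linarith [h.lift.pos]) (by rw [hs, norm_zero])
  have h3 : P b - (ψ (τ, (P b + ξ, p))).1 = 0 := norm_le_zero_iff.1 (by linarith)
  have h4 : dV F (σ (b, τ • ξ)) x = 0 := by
    ext w
    have := h.dV_x hF hτ b x w ξ p
    rw [hs, h.beta.eq ξ h1.le] at this
    exact this.symm
  refine ⟨h1, (sub_eq_zero.1 h3).symm, h4, fun η => ?_, ?_⟩
  · have := h.dV_all hF hτ b x 0 h1 p η 0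
    rw [hs, h3, h4] at this
    simp only [zero_apply, inner_zero_right, add_zero] at this
    linarith
  · rw [stp_mk, h.beta.eq ξ h1.le, h3]
    simp only [inner_zero_right, add_zero, sub_self]

theorem crit_of (h : Ctx α Qt Q P ε σ β A B κ R ψ S) (hF : ContDiff ℝ ∞ F) {τ : ℝ}
    (hτ : τ ∈ Icc (0 : ℝ) 1) {b : E} {x : V} {ξ p : E'} (h1 : ‖ξ‖ < ε)
    (h2 : (ψ (τ, (P b + ξ, p))).1 = P b) (h3 : dV F (σ (b, τ • ξ)) x = 0)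
    (h4 : ∀ η, ⟪p, η⟫ = τ * fderiv ℝ F (σ (b, τ • ξ), x) (fderiv ℝ σ (b, τ • ξ) (0, η), 0)) :
    dV (fun y => stp P σ β ψ S F (τ, y)) b (Aux.mk x ξ p) = 0 := by
  ext Y
  rw [← mk_eta Y, h.dV_all hF hτ b x _ h1, h2, h3, h4]
  simp only [zero_apply, inner_zero_right, add_zero, sub_self]

theorem smul_le (_ : Ctx α Qt Q P ε σ β A B κ R ψ S) {τ : ℝ} (hτ : τ ∈ Icc (0 : ℝ) 1) {ξ : E'}
    (hξ : ‖ξ‖ ≤ 2 * ε) : ‖τ • ξ‖ ≤ 2 * ε := by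
  rw [norm_smul, Real.norm_eq_abs, abs_of_nonneg hτ.1]
  nlinarith [hτ.1, hτ.2, norm_nonneg ξ]

theorem far [FiniteDimensional ℝ E'] [FiniteDimensional ℝ V]
    (h : Ctx α Qt Q P ε σ β A B κ R ψ S) (hF : ContDiff ℝ ∞ F)
    (hfar : ∃ c > 0, ∃ R, ∀ b ∈ Qt, ∀ x, R ≤ ‖x‖ → c ≤ ‖dV F b x‖) :
    ∃ c > 0, ∃ R', ∀ τ ∈ Icc (0 : ℝ) 1, ∀ b ∈ Qt, ∀ X, R' ≤ ‖X‖ →
      c ≤ ‖dV (fun y => stp P σ β ψ S F (τ, y)) b X‖ := by
  obtain ⟨c, hc, R₁, hR⟩ := hfar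
  obtain ⟨C₂, hC₂⟩ := h.move.dq
  have hε := h.lift.pos
  have hK : IsCompact ((Qt ×ˢ Metric.closedBall (0 : E') (2 * ε)) ×ˢ
      Metric.closedBall (0 : V) R₁) :=
    (h.cov.cptT.prod (isCompact_closedBall _ _)).prod (isCompact_closedBall _ _)
  have hcont : Continuous fun w : (E × E') × V =>
      ‖fderiv ℝ F (σ w.1, w.2)‖ * ‖fderiv ℝ σ w.1‖ :=
    ((hF.continuous_fderiv (by simp)).comp
      ((h.lift.smooth.continuous.comp continuous_fst).prodMk continuous_snd)).norm.mul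
      ((h.lift.smooth.continuous_fderiv (by simp)).comp continuous_fst).norm
  obtain ⟨C₁, hC₁⟩ := hK.exists_bound_of_continuousOn hcont.continuousOn
  set c' := min (c / 2) (ε / 8) with hc'
  have hc'0 : 0 < c' := lt_min (by linarith) (by linarith)
  refine ⟨c', hc'0, R₁ + ε + (c' + |C₁| + |C₂| * (2 * c')), fun τ hτ b hb X hX => ?_⟩
  by_contra hn
  have hn := (not_le.1 hn).le
  obtain ⟨x, ξ, p, rfl⟩ := exists_mk X
  obtain ⟨h1, h2⟩ := h.small hF hτ (min_le_right _ _) hn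
  have hη : ‖τ • ξ‖ ≤ 2 * ε := h.smul_le hτ (by linarith)
  have hb' := h.lift.mem b hb _ hη
  have h3 : ‖dV F (σ (b, τ • ξ)) x‖ ≤ c' := by
    refine ContinuousLinearMap.opNorm_le_bound _ hc'0.le fun w => ?_
    have := h.dV_x hF hτ b x w ξ p
    rw [h.beta.eq ξ h1.le] at this
    rw [← this, ← norm_mk_x (E' := E') w]
    exact ContinuousLinearMap.le_of_opNorm_le _ hn _
  have h4 : ‖x‖ < R₁ := by
    by_contra h5
    have h6 := hR _ hb' x (not_lt.1 h5)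
    have h7 : c' ≤ c / 2 := min_le_left _ _
    linarith
  have h5 : ‖fderiv ℝ F (σ (b, τ • ξ), x)‖ * ‖fderiv ℝ σ (b, τ • ξ)‖ ≤ |C₁| := by
    have := hC₁ ((b, τ • ξ), x) ⟨⟨hb, by simpa using hη⟩, by simpa using h4.le⟩
    exact (le_abs_self _).trans (this.trans (le_abs_self _))
  have h6 : |τ * fderiv ℝ F (σ (b, τ • ξ), x) (fderiv ℝ σ (b, τ • ξ) (0, p), 0)| ≤
      |C₁| * ‖p‖ := by
    have e1 : ‖(fderiv ℝ σ (b, τ • ξ) (0, p), (0 : V))‖ ≤ ‖fderiv ℝ σ (b, τ • ξ)‖ * ‖p‖ := by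
      have e2 := (fderiv ℝ σ (b, τ • ξ)).le_opNorm ((0 : E), p)
      have e3 : ‖((0 : E), p)‖ = ‖p‖ := by simp
      rw [e3] at e2
      simpa using e2
    have e4 := (fderiv ℝ F (σ (b, τ • ξ), x)).le_of_opNorm_le_of_le le_rfl e1
    rw [← mul_assoc, Real.norm_eq_abs] at e4
    have e5 := mul_le_mul_of_nonneg_right h5 (norm_nonneg p)
    rw [abs_mul, abs_of_nonneg hτ.1]
    nlinarith [hτ.1, hτ.2, abs_nonneg
      (fderiv ℝ F (σ (b, τ • ξ), x) (fderiv ℝ σ (b, τ • ξ) (0, p), 0))]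
  have h7 : |⟪(fderiv ℝ (fun y => ψ (τ, y)) (P b + ξ, p) (p, 0)).2,
      P b - (ψ (τ, (P b + ξ, p))).1⟫| ≤ |C₂| * ‖p‖ * (2 * c') := by
    refine (abs_real_inner_le_norm _ _).trans (mul_le_mul ?_ h2 (norm_nonneg _) (by positivity))
    exact (hC₂ τ hτ _ p).trans (mul_le_mul_of_nonneg_right (le_abs_self _) (norm_nonneg _))
  have h8 : |dV (fun y => stp P σ β ψ S F (τ, y)) b (Aux.mk x ξ p) (Aux.mk 0 p 0)| ≤ c' * ‖p‖ := by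
    rw [← Real.norm_eq_abs, ← norm_mk_ξ (V := V) p]
    exact ContinuousLinearMap.le_of_opNorm_le _ hn _
  rw [h.dV_all hF hτ b x 0 h1, map_zero, add_zero, real_inner_self_eq_norm_sq] at h8
  have h9 : ‖p‖ ≤ c' + |C₁| + |C₂| * (2 * c') := by
    by_contra h10
    have h10 := not_le.1 h10
    have h11 : 0 < ‖p‖ := lt_of_le_of_lt (by positivity) h10
    have h12 := mul_lt_mul_of_pos_right h10 h11
    have := abs_le.1 h6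
    have := abs_le.1 h7
    have := abs_le.1 h8
    nlinarith
  have h10 := norm_mk_le x ξ p
  linarith

theorem inv (h : Ctx α Qt Q P ε σ β A B κ R ψ S) {ρ : G →* (V ≃ₗᵢ[ℝ] V)}
    (hinv : ∀ g, ∀ b ∈ Qt, ∀ x, F (α g b, ρ g x) = F (b, x)) {τ : ℝ} (hτ : τ ∈ Icc (0 : ℝ) 1)
    (g : G) {b : E} (hb : b ∈ Qt) (X : St V E') :
    stp P σ β ψ S F (τ, (α g b, stRep E' ρ g X)) = stp P σ β ψ S F (τ, (b, X)) := by
  obtain ⟨x, ξ, p, rfl⟩ := exists_mk X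
  have e : stRep E' ρ g (Aux.mk x ξ p) = Aux.mk (ρ g x) ξ p := rfl
  have hη := h.smul_le hτ (h.beta.le ξ)
  rw [e, stp_mk, stp_mk, h.cov.inv g b hb, h.lift.equi g b hb _ hη,
    hinv g _ (h.lift.mem b hb _ hη)]

theorem gap (h : Ctx α Qt Q P ε σ β A B κ R ψ S) (hF : ContDiff ℝ ∞ F) {a m : ℝ}
    (hg : ∀ b ∈ Qt, ∀ x, dV F b x = 0 → |F (b, x)| ≤ a - m ∨ a + m ≤ |F (b, x)|) {τ : ℝ}
    (hτ : τ ∈ Icc (0 : ℝ) 1) {b : E} (hb : b ∈ Qt) {X : St V E'}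
    (hs : dV (fun y => stp P σ β ψ S F (τ, y)) b X = 0) :
    |stp P σ β ψ S F (τ, (b, X))| ≤ a - (m - κ) ∨ a + (m - κ) ≤ |stp P σ β ψ S F (τ, (b, X))| := by
  obtain ⟨x, ξ, p, rfl⟩ := exists_mk X
  obtain ⟨h1, -, h3, -, h5⟩ := h.crit hF hτ hs
  have hη : ‖τ • ξ‖ ≤ 2 * ε := h.smul_le hτ (by linarith [h.lift.pos])
  have h6 := h.move.act τ hτ (P b + ξ, p)
  rw [h5]
  rcases hg _ (h.lift.mem b hb _ hη) _ h3 with h7 | h7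
  · left
    linarith [abs_add_le (F (σ (b, τ • ξ), x)) (S (τ, (P b + ξ, p)))]
  · right
    have h8 := abs_sub (F (σ (b, τ • ξ), x) + S (τ, (P b + ξ, p))) (S (τ, (P b + ξ, p)))
    rw [add_sub_cancel_right] at h8
    linarith

theorem isHtpy [FiniteDimensional ℝ E'] [FiniteDimensional ℝ V]
    (h : Ctx α Qt Q P ε σ β A B κ R ψ S) {ρ : G →* (V ≃ₗᵢ[ℝ] V)} {a m : ℝ}
    (hF : IsAdm α Qt a ρ F) (hm : κ + 1 ≤ m)
    (hg : ∀ b ∈ Qt, ∀ x, dV F b x = 0 → |F (b, x)| ≤ a - m ∨ a + m ≤ |F (b, x)|) :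
    IsHtpy α Qt a (stRep E' ρ) (stp P σ β ψ S F) where
  smooth := h.smooth hF.smooth
  inv := fun _ hτ g _ hb X => h.inv hF.inv hτ g hb X
  far := h.far hF.smooth hF.far
  gap := fun _ hτ _ hb _ hs => (h.gap hF.smooth hg hτ hb hs).imp (fun _ => by linarith)
    fun _ => by linarith

theorem stp_zero (h : Ctx α Qt Q P ε σ β A B κ R ψ S) :
    (fun w => stp P σ β ψ S F (0, w)) = stF E' F := by
  funext w
  simp only [stp, stF, zero_smul, h.lift.zero, h.move.S0, h.move.ψ0, inner_sub_right,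
    inner_add_right]
  ring

end Ctx

theorem IsHtpy.adm {ρ : G →* (V ≃ₗᵢ[ℝ] V)} {a : ℝ} {K : ℝ × (E × V) → ℝ}
    (h : IsHtpy α Qt a ρ K) {s : ℝ} (hs : s ∈ Icc (0 : ℝ) 1) :
    IsAdm α Qt a ρ fun w => K (s, w) where
  smooth := slice_smooth h.smooth s
  inv := h.inv s hs
  far := by
    obtain ⟨c, hc, R, hR⟩ := h.far
    exact ⟨c, hc, R, hR s hs⟩
  gap := h.gap s hs

end Aux

end Vale.Agent.P220Z.Per
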