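import Vale.Agent.P220Z.Per.Defs

/-!
# P220, persistence of generating families: lifts exist (`StLift`)
-/

open Set Filter Topology
open scoped ContDiff

namespace Vale.Agent.P220Z.Per

open Vale.Agent.P220.R2.H57

section Inv

variable {X : Type} [NormedAddCommGroup X] [NormedSpace ℝ X] [FiniteDimensional ℝ X]

/-- a local smooth right inverse of a map whose derivative is the identity -/
theorem lift_rightInv {f : X → X} (hf : ContDiff ℝ ∞ f) {x₀ : X}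
    (hd : ∀ v, fderiv ℝ f x₀ v = v) :
    ∃ O ∈ 𝓝 (f x₀), ∃ m : X → X, ContDiffOn ℝ ∞ m O ∧ m (f x₀) = x₀ ∧
      ∀ N ∈ 𝓝 x₀, ∀ᶠ y in 𝓝 (f x₀), m y ∈ N ∧ f (m y) = y := by
  have : CompleteSpace X := FiniteDimensional.complete ℝ X
  obtain ⟨O, hO, m, hm, hmf⟩ := exists_leftInv hf (x₀ := x₀) (fun v hv => by rwa [hd] at hv)
  have h1 : fderiv ℝ f x₀ = ((ContinuousLinearEquiv.refl ℝ X : X ≃L[ℝ] X) : X →L[ℝ] X) := by
    ext v
    simp [hd]
  have hs : HasStrictFDerivAt f ((ContinuousLinearEquiv.refl ℝ X : X ≃L[ℝ] X) : X →L[ℝ] X) x₀ := by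
    rw [← h1]
    exact hf.contDiffAt.hasStrictFDerivAt (by simp)
  refine ⟨O, hO, m, hm, hmf.self_of_nhds, fun N hN => ?_⟩
  rw [← hs.map_nhds_eq_of_equiv, eventually_map]
  filter_upwards [hmf, hN] with x h2 h3
  rw [h2]
  exact ⟨h3, rfl⟩

end Inv

variable {G : Type} [Group G]
  {E : Type} [NormedAddCommGroup E] [InnerProductSpace ℝ E] [FiniteDimensional ℝ E]
  {E' : Type} [NormedAddCommGroup E'] [InnerProductSpace ℝ E'] [FiniteDimensional ℝ E']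

/-- a smooth map with injective derivative on the tangent space is locally injective on `S` -/
theorem lift_locInj {S U : Set E} {r : E → E} (hr : IsRet S U r) {P : E → E'}
    (hP : ContDiff ℝ ∞ P) {b : E} (hinj : ∀ u ∈ Tn r b, fderiv ℝ P b u = 0 → u = 0) :
    ∃ O ∈ 𝓝 b, ∀ y ∈ O, ∀ y' ∈ O, y ∈ S → y' ∈ S → P y = P y' → y = y' := by
  set f : E → E' × E := fun x => (P x, x - r x) with hf
  have hfs : ContDiff ℝ ∞ f := hP.prodMk (contDiff_id.sub hr.smooth)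
  have hfd : HasFDerivAt f ((fderiv ℝ P b).prod (ContinuousLinearMap.id ℝ E - fderiv ℝ r b)) b :=
    (hP.differentiable (by simp) b).hasFDerivAt.prodMk
      ((hasFDerivAt_id b).sub (hr.hasFDerivAt b))
  obtain ⟨O, hO, h⟩ := locInj hfs (x₀ := b) (by
    intro v hv
    rw [hfd.fderiv] at hv
    simp only [ContinuousLinearMap.prod_apply, sub_apply, ContinuousLinearMap.id_apply,
      Prod.mk_eq_zero] at hv
    exact hinj v (sub_eq_zero.1 hv.2).symm hv.1)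
  refine ⟨O, hO, fun y hy y' hy' h1 h2 h3 => h hy hy' ?_⟩
  simp only [hf, hr.fix y h1, hr.fix y' h2, sub_self, h3]

/-- uniform local injectivity -/
theorem lift_unifInj {S U : Set E} {r : E → E} (hr : IsRet S U r) (hS : IsCompact S) {P : E → E'}
    (hP : ContDiff ℝ ∞ P) (hinj : ∀ b ∈ S, ∀ u ∈ Tn r b, fderiv ℝ P b u = 0 → u = 0) :
    ∃ δ > 0, ∀ b ∈ S, ∀ y ∈ S, ∀ y' ∈ S, ‖y - b‖ < δ → ‖y' - b‖ < δ → P y = P y' → y = y' := by
  have h1 : ∀ b : S, ∃ O : Set E, IsOpen O ∧ (b : E) ∈ O ∧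
      ∀ y ∈ O, ∀ y' ∈ O, y ∈ S → y' ∈ S → P y = P y' → y = y' := by
    intro b
    obtain ⟨O, hO, h⟩ := lift_locInj hr hP (hinj b b.2)
    exact ⟨interior O, isOpen_interior, mem_interior_iff_mem_nhds.2 hO,
      fun y hy y' hy' => h y (interior_subset hy) y' (interior_subset hy')⟩
  choose O hO1 hO2 hO3 using h1
  obtain ⟨δ, hδ, h⟩ := lebesgue_number_lemma_of_metric hS hO1
    (fun b hb => mem_iUnion.2 ⟨⟨b, hb⟩, hO2 _⟩)
  refine ⟨δ, hδ, fun b hb y hy y' hy' h2 h3 h4 => ?_⟩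
  obtain ⟨i, hi⟩ := h b hb
  exact hO3 i y (hi (mem_ball_iff_norm.2 h2)) y' (hi (mem_ball_iff_norm.2 h3)) hy hy' h4

/-- local sections -/
theorem lift_section {S U : Set E} {r : E → E} (hr : IsRet S U r) {Q U' : Set E'} {r' : E' → E'}
    (hr' : IsRet Q U' r') {P : E → E'} (hP : ContDiff ℝ ∞ P) (hmaps : ∀ b ∈ S, P b ∈ Q) {b : E}
    (hb : b ∈ S) (hsurj : ∀ v ∈ Tn r' (P b), ∃ u ∈ Tn r b, fderiv ℝ P b u = v) :
    ∃ O ∈ 𝓝 (P b), ∃ s : E' → E, ContDiffOn ℝ ∞ s O ∧ s (P b) = b ∧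
      ∀ q ∈ O, q ∈ Q → s q ∈ S ∧ P (s q) = q := by
  set π : E' →L[ℝ] E' := fderiv ℝ r' (P b) with hπ
  have hq₀ : P b ∈ Q := hmaps b hb
  have hππ : ∀ v, π (π v) = π v := hr'.fderiv_fderiv hq₀
  -- a linear lift of `π`
  obtain ⟨B, hB1, hB2⟩ : ∃ B : E' →L[ℝ] E, (∀ z, B z ∈ Tn r b) ∧ ∀ z, fderiv ℝ P b (B z) = π z := by
    let e := Module.finBasis ℝ E'
    choose u hu1 hu2 using fun i => hsurj (π (e i)) (hr'.fderiv_mem hq₀ (e i))
    let B : E' →ₗ[ℝ] E := e.constr ℝ u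
    have h1 : ∀ z, B z ∈ Tn r b := by
      intro z
      simp only [B, Module.Basis.constr_apply_fintype]
      exact Submodule.sum_mem _ fun i _ => Submodule.smul_mem _ _ (hu1 i)
    have h2 : (fderiv ℝ P b : E →ₗ[ℝ] E') ∘ₗ B = (π : E' →ₗ[ℝ] E') := by
      refine e.ext fun i => ?_
      simp [B, hu2]
    exact ⟨LinearMap.toContinuousLinearMap B, h1, fun z => congrArg (fun C => C z) h2⟩
  set k : E' → E := fun z => r (b + B z) with hk
  have hks : ContDiff ℝ ∞ k := hr.smooth.comp (contDiff_const.add B.contDiff)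
  have hk0 : k 0 = b := by simp [hk, hr.fix b hb]
  set h : E' → E' := fun z => P (k z) + (z - π z) with hh
  have hhs : ContDiff ℝ ∞ h := (hP.comp hks).add (contDiff_id.sub π.contDiff)
  have hh0 : h 0 = P b := by simp [hh, hk0]
  have hhd : ∀ v, fderiv ℝ h 0 v = v := by
    intro v
    have h1 : HasFDerivAt (fun z : E' => b + B z) B 0 := B.hasFDerivAt.const_add b
    have h2 : HasFDerivAt r (fderiv ℝ r b) (b + B 0) := by simpa using hr.hasFDerivAt b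
    have h3 : HasFDerivAt k ((fderiv ℝ r b).comp B) 0 := h2.comp 0 h1
    have h4 : HasFDerivAt P (fderiv ℝ P b) (k 0) := by
      rw [hk0]
      exact (hP.differentiable (by simp) b).hasFDerivAt
    have h5 : HasFDerivAt h ((fderiv ℝ P b).comp ((fderiv ℝ r b).comp B) +
        (ContinuousLinearMap.id ℝ E' - π)) 0 :=
      (h4.comp 0 h3).add ((hasFDerivAt_id 0).sub π.hasFDerivAt)
    rw [h5.fderiv]
    simp only [add_apply, ContinuousLinearMap.comp_apply, sub_apply, ContinuousLinearMap.id_apply]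
    rw [mem_Tn.1 (hB1 v), hB2]
    abel
  obtain ⟨O, hO, m, hm, hm0, hmh⟩ := lift_rightInv hhs hhd
  rw [hh0] at hO hm0 hmh
  obtain ⟨O', hO', hinj⟩ := lift_locInj hr' π.contDiff (b := P b) (by
    intro u hu h1
    rw [π.fderiv] at h1
    rw [← mem_Tn.1 hu]
    exact h1)
  have hN : {z : E' | b + B z ∈ U ∧ P (k z) ∈ O'} ∈ 𝓝 (0 : E') := by
    have h1 : ContinuousAt (fun z : E' => b + B z) 0 := by fun_prop
    have h2 : ContinuousAt (fun z : E' => P (k z)) 0 := (hP.comp hks).continuous.continuousAt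
    refine inter_mem (h1.preimage_mem_nhds ?_) (h2.preimage_mem_nhds ?_)
    · simpa using hr.isOpen.mem_nhds (hr.sub hb)
    · simpa [hk0] using hO'
  refine ⟨_, inter_mem hO (inter_mem hO' (hmh _ hN)), fun q => k (m q),
    (hks.comp_contDiffOn hm).mono inter_subset_left, by simp only [hm0, hk0], ?_⟩
  rintro q ⟨-, h1, ⟨h2, h3⟩, h4⟩ hq
  have h5 : k (m q) ∈ S := hr.maps _ h2
  refine ⟨h5, hinj _ h3 _ h1 (hmaps _ h5) hq ?_⟩
  have h6 : π (h (m q)) = π (P (k (m q))) := by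
    simp only [hh, map_add, map_sub, hππ, sub_self, add_zero]
  rw [← h6, h4]

/-- the lift on `Qt × closedBall`, characterised by uniqueness -/
theorem lift_exists {α : G →* (E ≃ₗᵢ[ℝ] E)} {Qt : Set E} {Q : Set E'} {P : E → E'}
    (h : IsCover α Qt Q P) {U' : Set E'} {r' : E' → E'} (hr' : IsRet Q U' r') :
    ∃ ε > 0, ∃ δ > 0, ∃ σ : E × E' → E, ContDiff ℝ ∞ σ ∧
      (∀ b ∈ Qt, ∀ y ∈ Qt, ∀ y' ∈ Qt, ‖y - b‖ < δ → ‖y' - b‖ < δ → P y = P y' → y = y') ∧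
      ∀ b ∈ Qt, ∀ η, ‖η‖ ≤ 2 * ε →
        σ (b, η) ∈ Qt ∧ ‖σ (b, η) - b‖ < δ ∧ P (σ (b, η)) = r' (P b + η) := by
  classical
  obtain ⟨U, r, hr⟩ := h.retT
  obtain ⟨δ, hδ, huniq⟩ := lift_unifInj hr h.cptT h.smooth
    (fun b hb u hu => h.inj b hb u ((hr.mem_Tan hb).2 hu))
  let T : E × E' → E → Prop := fun w y => y ∈ Qt ∧ ‖y - w.1‖ < δ ∧ P y = r' (P w.1 + w.2)
  let W : E × E' → Prop := fun w => ∃ O ∈ 𝓝 w, ∃ f : E × E' → E, ContDiffOn ℝ ∞ f O ∧
    ∀ z ∈ O, T z (f z)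
  have h1 : ∀ b ∈ Qt, ∀ᶠ z : E' × E in 𝓝 (0, b), W (z.2, z.1) := by
    intro b hb
    have hq := h.maps b hb
    obtain ⟨O, hO, s, hs, hs0, hsQ⟩ := lift_section hr hr' h.smooth h.maps hb (by
      intro v hv
      obtain ⟨u, hu, hu'⟩ := h.surj b hb v ((hr'.mem_Tan hq).2 hv)
      exact ⟨u, (hr.mem_Tan hb).1 hu, hu'⟩)
    set a : E × E' → E' := fun w => P w.1 + w.2 with ha
    have has : ContDiff ℝ ∞ a := (h.smooth.comp contDiff_fst).add contDiff_snd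
    have ha0 : a (b, 0) = P b := by simp [ha]
    have hra : ContDiff ℝ ∞ fun w => r' (a w) := hr'.smooth.comp has
    have hra0 : r' (a (b, 0)) = P b := by rw [ha0, hr'.fix _ hq]
    have h2 : {w | a w ∈ U'} ∈ 𝓝 (b, (0 : E')) :=
      has.continuous.continuousAt.preimage_mem_nhds
        (by rw [ha0]; exact hr'.isOpen.mem_nhds (hr'.sub hq))
    have h3 : {w | r' (a w) ∈ O} ∈ 𝓝 (b, (0 : E')) :=
      hra.continuous.continuousAt.preimage_mem_nhds (by rw [hra0]; exact hO)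
    have h4 : ContDiffOn ℝ ∞ (fun w => s (r' (a w))) {w | r' (a w) ∈ O} :=
      hs.comp hra.contDiffOn fun w hw => hw
    have h5 : {w : E × E' | ‖s (r' (a w)) - w.1‖ < δ} ∈ 𝓝 (b, (0 : E')) := by
      have h6 : ContinuousAt (fun w : E × E' => ‖s (r' (a w)) - w.1‖) (b, 0) :=
        ((h4.continuousOn.continuousAt h3).sub continuousAt_fst).norm
      refine h6.preimage_mem_nhds (t := Iio δ) (Iio_mem_nhds ?_)
      simp only [hra0, hs0, sub_self, norm_zero]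
      exact hδ
    have h7 : ∀ᶠ w in 𝓝 (b, (0 : E')), W w := by
      filter_upwards [eventually_mem_nhds_iff.2 (inter_mem h2 (inter_mem h3 h5))] with w hw
      refine ⟨_, hw, fun w => s (r' (a w)), h4.mono fun z hz => hz.2.1, ?_⟩
      rintro z ⟨h8, h9, h10⟩
      obtain ⟨h11, h12⟩ := hsQ _ h9 (hr'.maps _ h8)
      exact ⟨h11, h10, h12⟩
    have h8 : Tendsto (fun z : E' × E => (z.2, z.1)) (𝓝 (0, b)) (𝓝 (b, 0)) :=
      continuous_swap.tendsto ((0 : E'), b)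
    exact h8.eventually h7
  have h2 := h.cptT.eventually_forall_of_forall_eventually (P := fun η b => W (b, η)) h1
  obtain ⟨ε, hε, h3⟩ := Metric.eventually_nhds_iff.1 h2
  have h4 : ∀ b ∈ Qt, ∀ η : E', ‖η‖ ≤ 2 * (ε / 3) → W (b, η) := fun b hb η hη =>
    h3 (by rw [dist_zero_right]; linarith) b hb
  have h5 : ∀ w : E × E', ∃ y, W w → T w y := by
    intro w
    by_cases hw : W w
    · obtain ⟨O, hO, f, -, hf⟩ := hw
      exact ⟨f w, fun _ => hf w (mem_of_mem_nhds hO)⟩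
    · exact ⟨0, fun h => absurd h hw⟩
  choose g hg using h5
  have hcl : IsClosed (Qt ×ˢ Metric.closedBall (0 : E') (2 * (ε / 3))) :=
    hr.isClosed.prod Metric.isClosed_closedBall
  obtain ⟨σ, hσ, hσg⟩ := glue hcl g (by
    rintro ⟨b, η⟩ ⟨hb, hη⟩
    obtain ⟨O, hO, f, hf, hfT⟩ := h4 b hb η (mem_closedBall_zero_iff.1 hη)
    refine ⟨O, hO, f, hf, ?_⟩
    rintro ⟨b', η'⟩ hz ⟨hb', hη'⟩
    obtain ⟨h6, h7, h8⟩ := hfT _ hz
    obtain ⟨h9, h10, h11⟩ := hg _ (h4 b' hb' η' (mem_closedBall_zero_iff.1 hη'))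
    exact huniq b' hb' _ h6 _ h9 h7 h10 (h8.trans h11.symm))
  refine ⟨ε / 3, by positivity, δ, hδ, σ, hσ, huniq, fun b hb η hη => ?_⟩
  rw [hσg (b, η) ⟨hb, mem_closedBall_zero_iff.2 hη⟩]
  exact hg _ (h4 b hb η hη)

theorem stLift : StLift := by
  intro G _ E _ _ _ E' _ _ _ α Qt Q P h
  obtain ⟨U, r, hr⟩ := h.retT
  obtain ⟨U', r', hr'⟩ := h.ret
  obtain ⟨ε, hε, δ, hδ, σ₀, hσ₀, huniq, hσ₀T⟩ := lift_exists h hr'
  set σ : E × E' → E := fun w => σ₀ w - σ₀ (w.1, 0) + w.1 with hσ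
  have hσs : ContDiff ℝ ∞ σ :=
    (hσ₀.sub (hσ₀.comp (contDiff_fst.prodMk contDiff_const))).add contDiff_fst
  have hT : ∀ b ∈ Qt, ∀ η, ‖η‖ ≤ 2 * ε →
      σ (b, η) ∈ Qt ∧ ‖σ (b, η) - b‖ < δ ∧ P (σ (b, η)) = r' (P b + η) := by
    intro b hb η hη
    obtain ⟨h1, h2, h3⟩ := hσ₀T b hb 0 (by simp; positivity)
    have h4 : σ₀ (b, 0) = b := huniq b hb _ h1 b hb h2 (by simpa using hδ)
      (by rw [h3, add_zero, hr'.fix _ (h.maps b hb)])
    have h5 : σ (b, η) = σ₀ (b, η) := by simp [hσ, h4]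
    rw [h5]
    exact hσ₀T b hb η hη
  have hPd : ∀ x, HasFDerivAt P (fderiv ℝ P x) x := fun x =>
    (h.smooth.differentiable (by simp) x).hasFDerivAt
  -- derivatives of `σ` along curves
  have hcurve : ∀ (c : ℝ → E) (e : ℝ → E') (u : E) (v : E'), (∀ t, c t ∈ Qt) → ‖e 0‖ ≤ ε →
      HasDerivAt c u 0 → HasDerivAt e v 0 →
      fderiv ℝ σ (c 0, e 0) (u, v) ∈ Tn r (σ (c 0, e 0)) ∧
      fderiv ℝ P (σ (c 0, e 0)) (fderiv ℝ σ (c 0, e 0) (u, v)) =
        fderiv ℝ r' (P (c 0) + e 0) (fderiv ℝ P (c 0) u + v) := by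
    intro c e u v hc he hcu hev
    have h1 : ∀ᶠ t in 𝓝 (0 : ℝ), ‖e t‖ ≤ 2 * ε := by
      have h2 : ∀ᶠ t in 𝓝 (0 : ℝ), ‖e t‖ < 2 * ε :=
        hev.continuousAt.norm.eventually_lt continuousAt_const (by linarith)
      exact h2.mono fun t ht => ht.le
    have h2 : HasDerivAt (fun t => σ (c t, e t)) (fderiv ℝ σ (c 0, e 0) (u, v)) 0 :=
      HasFDerivAt.comp_hasDerivAt (f := fun t => (c t, e t)) (0 : ℝ)
        (hσs.differentiable (by simp) (c 0, e 0)).hasFDerivAt (hcu.prodMk hev)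
    refine ⟨hr.curve_tangent (h1.mono fun t ht => (hT _ (hc t) _ ht).1) h2, ?_⟩
    have h3 := (hPd (σ (c 0, e 0))).comp_hasDerivAt (0 : ℝ) h2
    have h4 : HasDerivAt (fun t => P (c t) + e t) (fderiv ℝ P (c 0) u + v) 0 :=
      ((hPd (c 0)).comp_hasDerivAt (0 : ℝ) hcu).add hev
    have h5 := (hr'.hasFDerivAt (P (c 0) + e 0)).comp_hasDerivAt (0 : ℝ) h4
    refine h3.unique (h5.congr_of_eventuallyEq ?_)
    filter_upwards [h1] with t ht
    exact (hT _ (hc t) _ ht).2.2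
  have hline : ∀ η v : E', HasDerivAt (fun t : ℝ => η + t • v) v 0 := fun η v => by
    simpa using ((hasDerivAt_id (0 : ℝ)).smul_const v).const_add η
  have hvert : ∀ b ∈ Qt, ∀ η, ‖η‖ ≤ ε → ∀ v, fderiv ℝ σ (b, η) (0, v) ∈ Tn r (σ (b, η)) ∧
      fderiv ℝ P (σ (b, η)) (fderiv ℝ σ (b, η) (0, v)) = fderiv ℝ r' (P b + η) v := by
    intro b hb η hη v
    simpa using hcurve (fun _ => b) (fun t => η + t • v) 0 v (fun _ => hb) (by simpa using hη)
      (hasDerivAt_const 0 b) (hline η v)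
  refine ⟨ε, σ, hε, hσs, fun b => by simp [hσ], fun b hb η hη => (hT b hb η hη).1, ?_, ?_, ?_,
    ?_, ?_⟩
  · intro g b hb η hη
    obtain ⟨h1, h2, h3⟩ := hT b hb η hη
    obtain ⟨h4, h5, h6⟩ := hT _ (h.act g b hb) η hη
    refine huniq _ (h.act g b hb) _ h4 _ (h.act g _ h1) h5 ?_ ?_
    · rw [← map_sub, LinearIsometryEquiv.norm_map]
      exact h2
    · rw [h6, h.inv g b hb, h.inv g _ h1, h3]
  · intro b hb η hη hQ
    rw [(hT b hb η hη).2.2, hr'.fix _ hQ]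
  · intro b hb η hη η'
    exact (hr.mem_Tan (hT b hb η (by linarith)).1).2 (hvert b hb η hη η').1
  · rintro b hb η hη u ⟨c, hc, hcS, rfl, hu⟩
    have h1 : HasDerivAt c u 0 := by
      rw [← hu]
      exact (hc.differentiable (by simp) 0).hasDerivAt
    obtain ⟨h2, h3⟩ := hcurve c (fun t => η + t • (-fderiv ℝ P (c 0) u)) u _ hcS
      (by simpa using hη) h1 (hline η _)
    simp only [zero_smul, add_zero, add_neg_cancel, map_zero] at h2 h3
    have h4 := (hT _ hb η (by linarith)).1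
    exact h.inj _ h4 _ ((hr.mem_Tan h4).2 h2) h3
  · intro b hb η hη hQ u hu
    obtain ⟨h4, -, h5⟩ := hT _ hb η (by linarith)
    rw [hr'.fix _ hQ] at h5
    obtain ⟨h2, h3⟩ := hvert b hb η hη (fderiv ℝ P (σ (b, η)) u)
    have h6 : fderiv ℝ P (σ (b, η)) u ∈ Tn r' (P b + η) := by
      obtain ⟨c, hc, hcS, h0, hu⟩ := hu
      have h1 : HasDerivAt c u 0 := by
        rw [← hu]
        exact (hc.differentiable (by simp) 0).hasDerivAt
      have h7 := hr'.curve_tangent (Eventually.of_forall fun t => h.maps _ (hcS t))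
        ((hPd (c 0)).comp_hasDerivAt (0 : ℝ) h1)
      simpa only [Function.comp_def, h0, h5] using h7
    rw [mem_Tn.1 h6] at h3
    have h8 := h.inj _ h4 _ ((hr.mem_Tan h4).2 (Submodule.sub_mem _ h2 ((hr.mem_Tan h4).1 hu)))
      (by rw [map_sub, h3, sub_self])
    exact sub_eq_zero.1 h8

end Vale.Agent.P220Z.Per
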