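import Vale.Agent.P220Z.Per.Defs2
import Vale.Agent.P220Z.Per.Gen
import Vale.Agent.P220Z.Per.Lift
import Vale.Agent.P220Z.Per.Rigid

/-!
# P220, persistence: the induction over the steps
-/

open Set Filter Topology
open scoped ContDiff RealInnerProductSpace

namespace Vale.Agent.P220Z.Per

open Vale.Agent.P220.R2.H57

namespace Aux

theorem exists_beta' {E' : Type} [NormedAddCommGroup E'] [InnerProductSpace ℝ E']
    [FiniteDimensional ℝ E'] {ε : ℝ} (hε : 0 < ε) :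
    ∃ β : E' → E', IsBeta ε β ∧ HasCompactSupport β := by
  let χ : ContDiffBump (0 : E') := ⟨ε, 2 * ε, hε, by linarith⟩
  refine ⟨fun ξ => χ ξ • ξ, ⟨χ.contDiff.smul contDiff_id, fun ξ h => ?_, fun ξ => ?_⟩,
    χ.hasCompactSupport.smul_right (f' := fun ξ : E' => ξ)⟩
  · rw [χ.one_of_mem_closedBall (by simpa using h), one_smul]
  · by_cases h : 2 * ε ≤ ‖ξ‖
    · rw [χ.zero_of_le_dist (by simpa using h), zero_smul, norm_zero]
      linarith
    · rw [norm_smul, Real.norm_eq_abs, abs_of_nonneg χ.nonneg]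
      have h1 : χ ξ ≤ 1 := χ.le_one
      have h2 : 0 ≤ χ ξ := χ.nonneg
      nlinarith [norm_nonneg ξ]

theorem exists_lam {G : Type} [Group G] {E : Type} [NormedAddCommGroup E] [InnerProductSpace ℝ E]
    {E' : Type} [NormedAddCommGroup E'] [InnerProductSpace ℝ E'] [FiniteDimensional ℝ E']
    {α : G →* (E ≃ₗᵢ[ℝ] E)} {Qt : Set E} {Q : Set E'} {P : E → E'} {ε : ℝ} {σ : E × E' → E}
    (hc : IsCover α Qt Q P) (hl : IsLift α Qt Q P ε σ) :
    ∃ Λ : ℝ, 1 ≤ Λ ∧ ∀ b ∈ Qt, ∀ ξ, ‖ξ‖ ≤ ε → ∀ η,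
      ‖fderiv ℝ P (σ (b, ξ)) (fderiv ℝ σ (b, ξ) (0, η))‖ ≤ Λ * ‖η‖ := by
  have hK : IsCompact (Qt ×ˢ Metric.closedBall (0 : E') ε) :=
    hc.cptT.prod (isCompact_closedBall _ _)
  have hcont : Continuous fun w : E × E' => ‖fderiv ℝ P (σ w)‖ * ‖fderiv ℝ σ w‖ :=
    ((hc.smooth.continuous_fderiv (by simp)).comp hl.smooth.continuous).norm.mul
      (hl.smooth.continuous_fderiv (by simp)).norm
  obtain ⟨C, hC⟩ := hK.exists_bound_of_continuousOn hcont.continuousOn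
  refine ⟨max 1 C, le_max_left _ _, fun b hb ξ hξ η => ?_⟩
  have h1 := (le_abs_self _).trans ((hC (b, ξ) ⟨hb, by simpa using hξ⟩).trans (le_max_right 1 C))
  have h2 := (fderiv ℝ σ (b, ξ)).le_opNorm ((0 : E), η)
  have h3 : ‖((0 : E), η)‖ = ‖η‖ := by simp
  rw [h3] at h2
  have h4 := (fderiv ℝ P (σ (b, ξ))).le_of_opNorm_le_of_le le_rfl h2
  rw [← mul_assoc] at h4
  exact h4.trans (mul_le_mul_of_nonneg_right h1 (norm_nonneg _))

end Aux

open Aux in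
theorem stGen (hS : StFlowS) : StGen := by
  intro G _ E _ _ _ E' _ _ _ α Qt Q P L hc hL
  obtain ⟨ε, σ, hl⟩ := stLift G E E' α Qt Q P hc
  obtain ⟨Λ, hΛ1, hΛ⟩ := exists_lam hc hl
  obtain ⟨U, r, hr⟩ := hc.ret
  obtain ⟨k, κ, R, A, hA0, hAk, hAR, hmv⟩ := hS E' Q U r L hr hc.cpt hL ε hl.pos Λ
  obtain ⟨β, hβ, hβc⟩ := exists_beta' (E' := E') hl.pos
  refine ⟨k * κ + 1, fun a N hN V _ _ _ ρ F hF hG hNF => ?_⟩
  have ind : ∀ j ≤ k, ∃ (V' : Type) (_ : NormedAddCommGroup V') (_ : InnerProductSpace ℝ V')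
      (_ : FiniteDimensional ℝ V') (ρ' : G →* (V' ≃ₗᵢ[ℝ] V')) (F' : E × V' → ℝ),
      IsAdm α Qt a ρ' F' ∧ IsGen Qt P (A j) a (((k : ℝ) - j) * κ + 1) F' ∧ N V' ρ' F' := by
    intro j
    induction j with
    | zero =>
      intro _
      refine ⟨V, inferInstance, inferInstance, inferInstance, ρ, F, hF, ?_, hNF⟩
      rw [hA0, Nat.cast_zero, sub_zero]
      exact hG
    | succ j ih =>
      intro hj
      obtain ⟨V', i1, i2, i3, ρ', F', h1, h2, h3⟩ := ih (by omega)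
      obtain ⟨ψ, S, hm, hs⟩ := hmv j (by omega)
      have hx : Ctx α Qt Q P ε σ β (A j) (A (j + 1)) κ R ψ S := ⟨hc, hl, hβ, hm⟩
      have hκ := hx.κ_nonneg
      have hj' : (j : ℝ) + 1 ≤ k := by exact_mod_cast hj
      have hle : κ + 1 ≤ ((k : ℝ) - j) * κ + 1 := by nlinarith
      refine ⟨St V' E', inferInstance, inferInstance, inferInstance, stRep E' ρ',
        fun w => stp P σ β ψ S F' (1, w), IsHtpy.adm (hx.isHtpy h1 hle h2.gap) one_mem, ?_,
        hN V' ρ' F' ε σ β _ _ κ R ψ S _ hx hs hβc h1 hle h2.gap h3⟩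
      have h4 := hx.isGen ⟨hΛ1, hΛ, hAR j (by omega)⟩ h1.smooth h2 (by linarith)
      have e : ((k : ℝ) - j) * κ + 1 - κ = ((k : ℝ) - ((j + 1 : ℕ) : ℝ)) * κ + 1 := by
        push_cast
        ring
      rwa [e] at h4
  obtain ⟨V', i1, i2, i3, ρ', F', h1, h2, h3⟩ := ind k le_rfl
  obtain ⟨Ut, rt, hrt⟩ := hc.retT
  rw [hAk] at h2
  exact ⟨V', i1, i2, i3, ρ', F', h1,
    stRigid E E' V' Qt Ut rt Q P a _ F' hrt hc.maps (by simp) h1.smooth h2, h3⟩

/-- properties invariant under homotopy and stabilisation pass through a step -/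
theorem IsStable.stepClosed {G : Type} [Group G] {E : Type} [NormedAddCommGroup E]
    [InnerProductSpace ℝ E] {E' : Type} [NormedAddCommGroup E'] [InnerProductSpace ℝ E']
    [FiniteDimensional ℝ E'] {α : G →* (E ≃ₗᵢ[ℝ] E)} {Qt : Set E} (Q : Set E') (P : E → E')
    {a : ℝ} {N : FamPred G E} (h : IsStable α Qt a E' N) : StepClosed α Qt Q P a N := by
  intro V _ _ _ ρ F ε σ β A B κ R ψ S m hx _ _ hF hm hg hN
  refine h.htpy _ _ _ (hx.isHtpy hF hm hg) ?_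
  rw [hx.stp_zero]
  exact h.stab V ρ F hF hN

theorem persist_of (hS : StFlowS) : StPersist := by
  intro G _ E _ _ _ E' _ _ _ α Qt Q P L hc hL
  obtain ⟨C, hC⟩ := stGen hS G E E' α Qt Q P L hc hL
  exact ⟨C, fun a N hN => hC a N (hN.stepClosed Q P)⟩

end Vale.Agent.P220Z.Per
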