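import Vale.Agent.P220Z.Per.Defs

/-!
# Transport of admissible and rigid families along a linear isometry of the fibre
-/

open Set
open scoped ContDiff RealInnerProductSpace

namespace Vale.Agent.P220Z.Per

variable {G : Type} [Group G]
  {E : Type} [NormedAddCommGroup E] [InnerProductSpace ℝ E]
  {V : Type} [NormedAddCommGroup V] [InnerProductSpace ℝ V]
  {V' : Type} [NormedAddCommGroup V'] [InnerProductSpace ℝ V']

theorem dV_transport (e : V ≃ₗᵢ[ℝ] V') {F : E × V → ℝ} {F' : E × V' → ℝ} {b : E}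
    (h : ∀ x, F (b, x) = F' (b, e x)) (x : V) :
    dV F b x = (dV F' b (e x)).comp (e.toContinuousLinearEquiv : V →L[ℝ] V') := by
  have h1 : (fun y => F (b, y)) = (fun y => F' (b, y)) ∘ e.toContinuousLinearEquiv :=
    funext fun y => h y
  rw [dV, h1, ContinuousLinearEquiv.comp_right_fderiv]
  rfl

theorem norm_dV_transport (e : V ≃ₗᵢ[ℝ] V') {F : E × V → ℝ} {F' : E × V' → ℝ} {b : E}
    (h : ∀ x, F (b, x) = F' (b, e x)) (x : V) : ‖dV F b x‖ = ‖dV F' b (e x)‖ := by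
  rw [dV_transport e h]
  exact ContinuousLinearMap.opNorm_comp_linearIsometryEquiv _ e

theorem dV_transport_zero (e : V ≃ₗᵢ[ℝ] V') {F : E × V → ℝ} {F' : E × V' → ℝ} {b : E}
    (h : ∀ x, F (b, x) = F' (b, e x)) (x : V) : dV F b x = 0 ↔ dV F' b (e x) = 0 := by
  rw [← norm_eq_zero, norm_dV_transport e h, norm_eq_zero]

/-- `F (b, x) = F' (b, e x)` over `Qt`; `F'` admissible gives `F` admissible. -/
theorem IsAdm.transport {α : G →* (E ≃ₗᵢ[ℝ] E)} {Qt : Set E} {a : ℝ} {ρ : G →* (V ≃ₗᵢ[ℝ] V)}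
    {ρ' : G →* (V' ≃ₗᵢ[ℝ] V')} {F : E × V → ℝ} {F' : E × V' → ℝ} (e : V ≃ₗᵢ[ℝ] V')
    (hA : IsAdm α Qt a ρ' F') (hs : ContDiff ℝ ∞ F) (hact : ∀ g, ∀ b ∈ Qt, α g b ∈ Qt)
    (he : ∀ g x, e (ρ g x) = ρ' g (e x)) (h : ∀ b ∈ Qt, ∀ x, F (b, x) = F' (b, e x)) :
    IsAdm α Qt a ρ F := by
  refine ⟨hs, fun g b hb x => ?_, ?_, fun b hb x hx => ?_⟩
  · rw [h _ (hact g b hb), he, hA.inv g b hb, h b hb]
  · obtain ⟨c, hc, R, hR⟩ := hA.far
    refine ⟨c, hc, R, fun b hb x hx => ?_⟩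
    rw [norm_dV_transport e (h b hb)]
    exact hR b hb _ (by rwa [e.norm_map])
  · rw [h b hb]
    exact hA.gap b hb _ ((dV_transport_zero e (h b hb) x).1 hx)

/-- the same when the identity holds for all base points -/
theorem IsAdm.transport' {α : G →* (E ≃ₗᵢ[ℝ] E)} {Qt : Set E} {a : ℝ} {ρ : G →* (V ≃ₗᵢ[ℝ] V)}
    {ρ' : G →* (V' ≃ₗᵢ[ℝ] V')} {F : E × V → ℝ} {F' : E × V' → ℝ} (e : V ≃ₗᵢ[ℝ] V')
    (hA : IsAdm α Qt a ρ' F') (he : ∀ g x, e (ρ g x) = ρ' g (e x))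
    (h : ∀ b x, F (b, x) = F' (b, e x)) : IsAdm α Qt a ρ F := by
  have h1 : F = F' ∘ fun w => (w.1, e w.2) := funext fun w => h w.1 w.2
  have hs : ContDiff ℝ ∞ F := by
    rw [h1]
    exact hA.smooth.comp (contDiff_fst.prodMk (e.contDiff.comp contDiff_snd))
  refine ⟨hs, fun g b hb x => ?_, ?_, fun b hb x hx => ?_⟩
  · rw [h, he, hA.inv g b hb, h b]
  · obtain ⟨c, hc, R, hR⟩ := hA.far
    refine ⟨c, hc, R, fun b hb x hx => ?_⟩
    rw [norm_dV_transport e (h b)]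
    exact hR b hb _ (by rwa [e.norm_map])
  · rw [h b]
    exact hA.gap b hb _ ((dV_transport_zero e (h b) x).1 hx)

/-- `F (b, x) = F' (b, e x)` over `Qt`; `F'` rigid gives `F` rigid. -/
theorem IsRigid.transport {Qt : Set E} {a : ℝ} {F : E × V → ℝ} {F' : E × V' → ℝ}
    (e : V ≃ₗᵢ[ℝ] V') (hR : IsRigid Qt a F') (hs : ContDiff ℝ ∞ F')
    (h : ∀ b ∈ Qt, ∀ x, F (b, x) = F' (b, e x)) : IsRigid Qt a F := by
  intro b hb
  obtain ⟨y, h1, h2, h3, h4⟩ := hR b hb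
  obtain ⟨x, rfl⟩ := e.surjective y
  refine ⟨x, (dV_transport_zero e (h b hb) x).2 h1, by rwa [h b hb], ?_, fun x' h5 h6 => ?_⟩
  · set c : V →L[ℝ] V' := (e.toContinuousLinearEquiv : V →L[ℝ] V') with hc
    have d0 : ContDiff ℝ ∞ fun y => F' (b, y) := hs.comp (contDiff_const.prodMk contDiff_id)
    have d1 : DifferentiableAt ℝ (dV F' b) (e x) :=
      ((d0.fderiv_right (m := 1) (by norm_cast)).differentiable (by simp)) _
    have d2 : HasFDerivAt (fun z => dV F' b (e z)) ((fderiv ℝ (dV F' b) (e x)).comp c) x :=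
      d1.hasFDerivAt.comp x c.hasFDerivAt
    have d3 := ((ContinuousLinearMap.compL ℝ V V' ℝ).flip c).hasFDerivAt.comp x d2
    have d4 : dV F b = ((ContinuousLinearMap.compL ℝ V V' ℝ).flip c) ∘
        fun z => dV F' b (e z) := funext fun z => dV_transport e (h b hb) z
    rw [d4, d3.fderiv]
    refine (injective_iff_map_eq_zero _).2 fun v hv => ?_
    have d5 : fderiv ℝ (dV F' b) (e x) (e v) = 0 := by
      ext w
      obtain ⟨u, rfl⟩ := e.surjective w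
      exact congrArg (fun L => L u) hv
    have d6 := (injective_iff_map_eq_zero _).1 h3 _ d5
    exact e.injective (by rw [d6, map_zero])
  · refine e.injective (h4 _ ((dV_transport_zero e (h b hb) x').1 h5) ?_)
    rwa [← h b hb]

end Vale.Agent.P220Z.Per
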