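import Vale.Agent.P220Z.Per.All
import Vale.Agent.P220Z.Per.Transport

/-!
# P220, persistence with structured output
-/

open Set Filter Topology
open scoped ContDiff RealInnerProductSpace

namespace Vale.Agent.P220Z.Per

namespace Str

open Aux

section BD

variable {A B C : Type} [NormedAddCommGroup A] [NormedSpace ℝ A] [NormedAddCommGroup B]
  [NormedSpace ℝ B] [NormedAddCommGroup C] [NormedSpace ℝ C] {s : Set A}

/-- a smooth map with bounded derivative on `s` -/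
structure BD (s : Set A) (f : A → B) : Prop where
  sm : ContDiff ℝ ∞ f
  bd : ∃ c, ∀ x ∈ s, ‖fderiv ℝ f x‖ ≤ c

theorem BD.diff {f : A → B} (h : BD s f) (x : A) : DifferentiableAt ℝ f x :=
  h.sm.differentiable (by simp) x

theorem BD.comp {t : Set B} {g : B → C} {f : A → B} (hg : BD t g) (hf : BD s f)
    (h : ∀ x ∈ s, f x ∈ t) : BD s fun x => g (f x) := by
  obtain ⟨c, hc⟩ := hg.bd
  obtain ⟨d, hd⟩ := hf.bd
  refine ⟨hg.sm.comp hf.sm, c * d, fun x hx => ?_⟩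
  rw [fderiv_fun_comp x (hg.diff _) (hf.diff x)]
  exact (ContinuousLinearMap.opNorm_comp_le _ _).trans
    (mul_le_mul (hc _ (h x hx)) (hd x hx) (norm_nonneg _) ((norm_nonneg _).trans (hc _ (h x hx))))

theorem BD.prod {f : A → B} {g : A → C} (hf : BD s f) (hg : BD s g) :
    BD s fun x => (f x, g x) := by
  obtain ⟨c, hc⟩ := hf.bd
  obtain ⟨d, hd⟩ := hg.bd
  refine ⟨hf.sm.prodMk hg.sm, max c d, fun x hx => ?_⟩
  rw [(hf.diff x).fderiv_prodMk (hg.diff x), ContinuousLinearMap.opNorm_prod]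
  exact max_le_max (hc x hx) (hd x hx)

theorem BD.add {f g : A → B} (hf : BD s f) (hg : BD s g) : BD s fun x => f x + g x := by
  obtain ⟨c, hc⟩ := hf.bd
  obtain ⟨d, hd⟩ := hg.bd
  refine ⟨hf.sm.add hg.sm, c + d, fun x hx => ?_⟩
  rw [fderiv_fun_add (hf.diff x) (hg.diff x)]
  exact norm_add_le_of_le (hc x hx) (hd x hx)

theorem bd_clm (s : Set A) (L : A →L[ℝ] B) : BD s L :=
  ⟨L.contDiff, ‖L‖, fun _ _ => L.fderiv.symm ▸ le_rfl⟩

theorem BD.clm {f : A → B} (hf : BD s f) (L : B →L[ℝ] C) : BD s fun x => L (f x) :=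
  (bd_clm univ L).comp hf fun _ _ => trivial

theorem bd_fst (s : Set (A × B)) : BD s fun y => y.1 := bd_clm s (.fst ℝ A B)

theorem bd_snd (s : Set (A × B)) : BD s fun y => y.2 := bd_clm s (.snd ℝ A B)

theorem bd_cpt (hs : IsCompact s) {f : A → B} (hf : ContDiff ℝ ∞ f) : BD s f :=
  ⟨hf, hs.exists_bound_of_continuousOn (hf.continuous_fderiv (by simp)).continuousOn⟩

theorem bd_supp {f : A → B} (hf : ContDiff ℝ ∞ f) (h : HasCompactSupport f) : BD univ f :=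
  ⟨hf, ((hf.continuous_fderiv (by simp)).bounded_above_of_compact_support (h.fderiv ℝ)).imp
    fun _ h x _ => h x⟩

theorem bd_van [FiniteDimensional ℝ B] (hs : IsCompact s) {f : A × B → ℝ} (hf : ContDiff ℝ ∞ f)
    {R : ℝ} (h : ∀ y : A × B, R ≤ ‖y.2‖ → f y = 0) :
    BD (s ×ˢ univ) f ∧ ∃ c, ∀ y ∈ s ×ˢ (univ : Set B), |f y| ≤ c := by
  have hK := hs.prod (isCompact_closedBall (0 : B) R)
  obtain ⟨c, hc⟩ := (bd_cpt hK hf).bd
  obtain ⟨d, hd⟩ := hK.exists_bound_of_continuousOn hf.continuous.continuousOn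
  refine ⟨⟨hf, max c 0, fun y hy => ?_⟩, max d 0, fun y hy => ?_⟩
  · rcases le_or_gt ‖y.2‖ R with h1 | h1
    · exact (hc y ⟨hy.1, by simpa using h1⟩).trans (le_max_left _ _)
    · have h2 : f =ᶠ[𝓝 y] fun _ => 0 := by
        filter_upwards [(isOpen_lt continuous_const continuous_snd.norm).mem_nhds h1] with z hz
        exact h z (le_of_lt hz)
      rw [h2.fderiv_eq, fderiv_fun_const, Pi.zero_apply, norm_zero]
      exact le_max_right _ _
  · rcases le_total ‖y.2‖ R with h1 | h1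
    · exact (hd y ⟨hy.1, by simpa using h1⟩).trans (le_max_left _ _)
    · rw [h y h1, abs_zero]
      exact le_max_right _ _

end BD

variable {G : Type} [Group G]
  {E : Type} [NormedAddCommGroup E] [InnerProductSpace ℝ E]
  {E' : Type} [NormedAddCommGroup E'] [InnerProductSpace ℝ E']
  {V : Type} [NormedAddCommGroup V] [InnerProductSpace ℝ V]
  {Z : Type} [NormedAddCommGroup Z] [InnerProductSpace ℝ Z]

/-- the reordering of the variables -/
noncomputable def shf (V Z W : Type) [NormedAddCommGroup V] [InnerProductSpace ℝ V]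
    [NormedAddCommGroup Z] [InnerProductSpace ℝ Z] [NormedAddCommGroup W] [InnerProductSpace ℝ W] :
    St V (WithLp 2 (Z × W)) ≃ₗᵢ[ℝ] St (St V Z) W where
  toFun X := mk (mk X.fst X.snd.fst.fst X.snd.snd.fst) X.snd.fst.snd X.snd.snd.snd
  invFun Y := mk Y.fst.fst (WithLp.toLp 2 (Y.fst.snd.fst, Y.snd.fst))
    (WithLp.toLp 2 (Y.fst.snd.snd, Y.snd.snd))
  map_add' _ _ := rfl
  map_smul' _ _ := rfl
  left_inv _ := rfl
  right_inv _ := rfl
  norm_map' X := by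
    obtain ⟨x, ξ, p, rfl⟩ := exists_mk X
    refine (sq_eq_sq₀ (norm_nonneg _) (norm_nonneg _)).1 ?_
    show ‖mk (mk x ξ.fst p.fst) ξ.snd p.snd‖ ^ 2 = _
    rw [norm_mk_sq, norm_mk_sq, norm_mk_sq, WithLp.prod_norm_sq_eq_of_L2 ξ,
      WithLp.prod_norm_sq_eq_of_L2 p]
    ring

/-- no new variables -/
noncomputable def triv (V Z : Type) [NormedAddCommGroup V] [InnerProductSpace ℝ V]
    [NormedAddCommGroup Z] [InnerProductSpace ℝ Z] [Subsingleton Z] : St V Z ≃ₗᵢ[ℝ] V where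
  toFun X := X.fst
  invFun x := mk x 0 0
  map_add' _ _ := rfl
  map_smul' _ _ := rfl
  left_inv X := by
    obtain ⟨x, ξ, p, rfl⟩ := exists_mk X
    rw [Subsingleton.elim ξ 0, Subsingleton.elim p 0]
    rfl
  right_inv _ := rfl
  norm_map' X := by
    obtain ⟨x, ξ, p, rfl⟩ := exists_mk X
    rw [Subsingleton.elim ξ 0, Subsingleton.elim p 0]
    exact (norm_mk_x x).symm

/-- the bounded term of one step -/
noncomputable def om (P : E → E') (ψ : ℝ × (E' × E') → E' × E') (S : ℝ × (E' × E') → ℝ)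
    (y : (E × E') × E') : ℝ :=
  S (1, (P y.1.1 + y.1.2, y.2)) +
    ⟪(ψ (1, (P y.1.1 + y.1.2, y.2))).2, P y.1.1 - (ψ (1, (P y.1.1 + y.1.2, y.2))).1⟫ + ⟪y.2, y.1.2⟫

/-- the new displacement -/
def sgN (σ : E × E' → E) (β : E' → E') (sg : E × Z → E) (y : E × WithLp 2 (Z × E')) : E :=
  sg (σ (y.1, β y.2.snd), y.2.fst)

/-- the new bounded term -/
def wN (σ : E × E' → E) (β : E' → E') (w : E × (Z × Z) → ℝ) (o : (E × E') × E' → ℝ)
    (y : E × (WithLp 2 (Z × E') × WithLp 2 (Z × E'))) : ℝ :=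
  w (σ (y.1, β y.2.1.snd), (y.2.1.fst, y.2.2.fst)) + o ((y.1, β y.2.1.snd), y.2.2.snd)

variable {α : G →* (E ≃ₗᵢ[ℝ] E)} {Qt : Set E} {Q : Set E'} {P : E → E'} {ε : ℝ}
  {σ : E × E' → E} {β : E' → E'} {A B : Set (E' × E')} {κ R : ℝ}
  {ψ : ℝ × (E' × E') → E' × E'} {S : ℝ × (E' × E') → ℝ} {sg : E × Z → E} {w : E × (Z × Z) → ℝ}

theorem om_smooth (h : Ctx α Qt Q P ε σ β A B κ R ψ S) : ContDiff ℝ ∞ (om P ψ S) := by
  have hP : ContDiff ℝ ∞ fun y : (E × E') × E' => P y.1.1 := h.cov.smooth.comp contDiff_fst.fst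
  have hz : ContDiff ℝ ∞ fun y : (E × E') × E' => ((1 : ℝ), (P y.1.1 + y.1.2, y.2)) :=
    contDiff_const.prodMk ((hP.add contDiff_fst.snd).prodMk contDiff_snd)
  exact ((h.move.sS.comp hz).add ((h.move.sψ.comp hz).snd.inner ℝ
    (hP.sub (h.move.sψ.comp hz).fst))).add (contDiff_snd.inner ℝ contDiff_fst.snd)

theorem isStr_step [FiniteDimensional ℝ E'] (h : Ctx α Qt Q P ε σ β A B κ R ψ S) (hS : Supp ψ S)
    (hβ : HasCompactSupport β) (hs : IsStr α Qt sg w) :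
    IsStr α Qt (sgN σ β sg) (wN σ β w (om P ψ S)) := by
  obtain ⟨R', hR⟩ := hS
  obtain ⟨C, hC⟩ := hs.bdd
  have hK := h.cov.cptT.prod (isCompact_closedBall (0 : E') (2 * ε))
  obtain ⟨o1, c, o2⟩ := bd_van hK (om_smooth h) (R := R') fun y hy => by
    obtain ⟨e1, e2⟩ := hR 1 one_mem (P y.1.1 + y.1.2, y.2) hy
    rw [om, e1, e2, sub_add_cancel_left, inner_neg_right, zero_add, neg_add_cancel]
  have b1 : BD (Qt ×ˢ univ) sg := ⟨hs.ssg, C, fun y hy => (hC y.1 hy.1 y.2 0).1⟩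
  have b2 : BD (Qt ×ˢ univ) w := ⟨hs.sw, C, fun y hy => (hC y.1 hy.1 y.2.1 y.2.2).2.2⟩
  have hm : ∀ b ∈ Qt, ∀ ξ, σ (b, β ξ) ∈ Qt := fun b hb ξ => h.lift.mem b hb _ (h.beta.le ξ)
  have hb : ∀ b ∈ Qt, ∀ ξ, (b, β ξ) ∈ Qt ×ˢ Metric.closedBall (0 : E') (2 * ε) := fun b hb ξ =>
    ⟨hb, by simpa using h.beta.le ξ⟩
  have b3 : BD (Qt ×ˢ univ) fun y : E × WithLp 2 (Z × E') => (y.1, β y.2.snd) :=
    (bd_fst _).prod ((bd_supp h.beta.smooth hβ).comp
      ((bd_snd _).clm (WithLp.sndL 2 ℝ Z E')) fun _ _ => trivial)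
  have b4 : BD (Qt ×ˢ univ) fun y : E × WithLp 2 (Z × E') => σ (y.1, β y.2.snd) :=
    (bd_cpt hK h.lift.smooth).comp b3 fun y hy => hb _ hy.1 _
  have b5 : BD (Qt ×ˢ univ) (sgN σ β sg) :=
    b1.comp (b4.prod ((bd_snd _).clm (WithLp.fstL 2 ℝ Z E')))
      fun y hy => ⟨hm _ hy.1 _, trivial⟩
  have b6 : BD (Qt ×ˢ univ) fun y : E × (WithLp 2 (Z × E') × WithLp 2 (Z × E')) => y.2.1 :=
    (bd_fst univ).comp (bd_snd _) fun _ _ => trivial
  have b7 : BD (Qt ×ˢ univ) fun y : E × (WithLp 2 (Z × E') × WithLp 2 (Z × E')) => y.2.2 :=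
    (bd_snd univ).comp (bd_snd _) fun _ _ => trivial
  have b8 := (bd_fst _).prod b6
  have b9 : BD (Qt ×ˢ univ) (wN σ β w (om P ψ S)) :=
    (b2.comp ((b4.comp b8 fun y hy => ⟨hy.1, trivial⟩).prod
      ((b6.clm (WithLp.fstL 2 ℝ Z E')).prod (b7.clm (WithLp.fstL 2 ℝ Z E'))))
      fun y hy => ⟨hm _ hy.1 _, trivial⟩).add
    (o1.comp ((b3.comp b8 fun y hy => ⟨hy.1, trivial⟩).prod (b7.clm (WithLp.sndL 2 ℝ Z E')))
      fun y hy => ⟨hb _ hy.1 _, trivial⟩)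
  obtain ⟨c5, k5⟩ := b5.bd
  obtain ⟨c9, k9⟩ := b9.bd
  refine ⟨b5.sm, b9.sm, fun b => ?_, fun b hb ξ => hs.mem _ (hm b hb _) _, fun g b hb ξ => ?_,
    fun g b hb z => ?_, max (max c5 c9) (C + c), fun b hq ξ p => ⟨(k5 (b, ξ) ⟨hq, trivial⟩).trans
      ((le_max_left _ _).trans (le_max_left _ _)), le_trans ?_ (le_max_right _ _),
      (k9 (b, (ξ, p)) ⟨hq, trivial⟩).trans ((le_max_right _ _).trans (le_max_left _ _))⟩⟩
  · show sg (σ (b, β 0), 0) = b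
    rw [h.beta.eq 0 (by simpa using h.lift.pos.le), h.lift.zero, hs.zero]
  · show sg (σ (α g b, β ξ.snd), ξ.fst) = α g (sg (σ (b, β ξ.snd), ξ.fst))
    rw [h.lift.equi g b hb _ (h.beta.le _), hs.equi g _ (hm b hb _)]
  · simp only [wN, om]
    rw [h.lift.equi g b hb _ (h.beta.le _), hs.inv g _ (hm b hb _), h.cov.inv g b hb]
  · exact (abs_add_le _ _).trans (add_le_add (hC _ (hm b hq _) _ _).2.1
      (o2 _ ⟨hb b hq _, trivial⟩))

/-- the property that passes through the steps -/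
def NS (α : G →* (E ≃ₗᵢ[ℝ] E)) (Qt : Set E) (a : ℝ) (ρ : G →* (V ≃ₗᵢ[ℝ] V)) (F : E × V → ℝ) :
    FamPred G E := fun V' _ _ _ ρ' F' =>
  ∃ (Z : Type) (_ : NormedAddCommGroup Z) (_ : InnerProductSpace ℝ Z) (_ : FiniteDimensional ℝ Z)
    (sg : E × Z → E) (w : E × (Z × Z) → ℝ) (e : St V Z ≃ₗᵢ[ℝ] V'),
    (∀ g X, e (stRep Z ρ g X) = ρ' g (e X)) ∧ IsStr α Qt sg w ∧
    (∀ b X, strF sg w F (b, X) = F' (b, e X)) ∧ ∀ b ∈ Qt, ∀ X, dV F' b (e X) = 0 →
      (|F' (b, e X)| < a ↔ |F (sg (b, X.snd.fst), X.fst)| < a)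

theorem ns_start [FiniteDimensional ℝ V] (a : ℝ) (ρ : G →* (V ≃ₗᵢ[ℝ] V)) (F : E × V → ℝ) :
    NS α Qt a ρ F V ρ F := by
  refine ⟨EuclideanSpace ℝ (Fin 0), inferInstance, inferInstance, inferInstance, fun y => y.1,
    fun _ => 0, triv V _, fun _ _ => rfl, ⟨contDiff_fst, contDiff_const, fun _ => rfl,
      fun _ hb _ => hb, fun _ _ _ _ => rfl, fun _ _ _ _ => rfl, 1, fun b _ ξ p => ?_⟩,
    fun b X => ?_, fun _ _ _ _ => Iff.rfl⟩
  · rw [fderiv_fst, fderiv_fun_const, Pi.zero_apply, abs_zero]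
    exact ⟨ContinuousLinearMap.norm_fst_le _ _ _, zero_le_one,
      ContinuousLinearMap.opNorm_zero.trans_le zero_le_one⟩
  · rw [strF, Subsingleton.elim X.snd.fst 0, inner_zero_right, sub_zero, add_zero]
    rfl

theorem ns_step [FiniteDimensional ℝ E'] (a : ℝ) (ρ : G →* (V ≃ₗᵢ[ℝ] V)) (F : E × V → ℝ) :
    StepClosed α Qt Q P a (NS α Qt a ρ F) := by
  intro V' _ _ _ ρ' F' ε σ β A B κ R ψ S m h hS hβ hA hm hg ⟨Z, _, _, _, sg, w, e, e1, hs, e2, e3⟩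
  refine ⟨WithLp 2 (Z × E'), inferInstance, inferInstance, inferInstance, sgN σ β sg,
    wN σ β w (om P ψ S), (shf V Z E').trans
      (LinearIsometryEquiv.withLpProdCongr 2 e (LinearIsometryEquiv.refl ℝ _)), fun g X => ?_,
    isStr_step h hS hβ hs, fun b X => ?_, fun b hb X hX => ?_⟩
  all_goals obtain ⟨x, ξ, p, rfl⟩ := exists_mk X
  · exact congrArg (fun y => mk y ξ.snd p.snd) (e1 g (mk x ξ.fst p.fst))
  · show _ = stp P σ β ψ S F' (1, (b, mk (e (mk x ξ.fst p.fst)) ξ.snd p.snd))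
    rw [stp_mk, one_smul, ← e2]
    have e4 : ⟪p, ξ⟫ = ⟪p.fst, ξ.fst⟫ + ⟪p.snd, ξ.snd⟫ := rfl
    simp only [strF, sgN, wN, om, WithLp.toLp_fst, WithLp.toLp_snd, e4, inner_sub_right p.snd]
    ring
  · obtain ⟨h1, -, h3, -, h5⟩ :=
      h.crit (x := e (mk x ξ.fst p.fst)) (ξ := ξ.snd) (p := p.snd) hA.smooth one_mem hX
    rw [one_smul] at h3 h5
    have hb' := h.lift.mem b hb ξ.snd (by linarith [h.lift.pos])
    show |stp P σ β ψ S F' (1, (b, mk (e (mk x ξ.fst p.fst)) ξ.snd p.snd))| < a ↔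
      |F (sg (σ (b, β ξ.snd), ξ.fst), x)| < a
    rw [h5, h.beta.eq _ h1.le]
    refine Iff.trans ?_ (e3 _ hb' _ h3)
    have h6 := h.move.act 1 one_mem (P b + ξ.snd, p.snd)
    have h7 := hg _ hb' _ h3
    have h8 := h.κ_nonneg
    generalize F' (σ (b, ξ.snd), e (mk x ξ.fst p.fst)) = u at h7 ⊢
    generalize S (1, (P b + ξ.snd, p.snd)) = v at h6 ⊢
    have h9 := abs_add_le u v
    have h10 := abs_sub (u + v) v
    rw [add_sub_cancel_right] at h10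
    rcases h7 with h7 | h7
    · exact iff_of_true (by linarith) (by linarith)
    · exact iff_of_false (by linarith) (by linarith)

end Str

theorem stStruct_of (h : StGen) : StStruct := by
  intro G _ E _ _ _ E' _ _ _ α Qt Q P L hc hL
  obtain ⟨C, hC⟩ := h G E E' α Qt Q P L hc hL
  refine ⟨C, fun a V _ _ _ ρ F hA hG => ?_⟩
  obtain ⟨V', _, _, _, ρ', F', h1, h2, Z, _, _, _, sg, w, e, e1, hs, e2, e3⟩ :=
    hC a _ (Str.ns_step a ρ F) V ρ F hA hG (Str.ns_start a ρ F)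
  refine ⟨Z, inferInstance, inferInstance, inferInstance, sg, w, hs, h1.transport' e e1 e2,
    h2.transport e h1.smooth fun b _ => e2 b, fun b hb X hX => ?_⟩
  rw [e2]
  exact e3 b hb X ((dV_transport_zero e (e2 b) X).1 hX)

theorem stStruct : StStruct := stStruct_of gen

end Vale.Agent.P220Z.Per
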